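import Vale.Agent.P361.State

/-! Commutators of spin operators with a spin wave. -/

noncomputable section

open Matrix

namespace Vale.Agent.P361

variable {ι : Type} [Fintype ι] [DecidableEq ι] {Λ : Type} [Fintype Λ] [DecidableEq Λ]

omit [DecidableEq ι] in
theorem cm_mul (A X Y : Matrix ι ι ℂ) : cm A (X * Y) = cm A X * Y + X * cm A Y := by
  simp only [cm]
  noncomm_ring

omit [DecidableEq ι] in
theorem cm_add (A X Y : Matrix ι ι ℂ) : cm A (X + Y) = cm A X + cm A Y := by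
  simp only [cm]
  noncomm_ring

omit [DecidableEq ι] in
theorem cm_sub (A X Y : Matrix ι ι ℂ) : cm A (X - Y) = cm A X - cm A Y := by
  simp only [cm]
  noncomm_ring

omit [DecidableEq ι] in
theorem cm_neg (A X : Matrix ι ι ℂ) : cm A (-X) = -cm A X := by
  simp only [cm]
  noncomm_ring

omit [DecidableEq ι] in
theorem cm_zero (A : Matrix ι ι ℂ) : cm A 0 = 0 := by
  simp only [cm, mul_zero, zero_mul, sub_zero]

omit [DecidableEq ι] in
theorem cm_smul (A X : Matrix ι ι ℂ) (c : ℂ) : cm A (c • X) = c • cm A X := by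
  simp only [cm, mul_smul_comm, smul_mul_assoc, smul_sub]

omit [DecidableEq ι] in
theorem cm_sum {α : Type} (A : Matrix ι ι ℂ) (s : Finset α) (X : α → Matrix ι ι ℂ) :
    cm A (∑ a ∈ s, X a) = ∑ a ∈ s, cm A (X a) := by
  simp only [cm, Finset.mul_sum, Finset.sum_mul, Finset.sum_sub_distrib]

omit [DecidableEq ι] in
theorem cm_skew (A X : Matrix ι ι ℂ) : cm A X = -cm X A := by
  simp only [cm, neg_sub]

omit [DecidableEq ι] in
theorem cm_star (A X : Matrix ι ι ℂ) : cm Aᴴ Xᴴ = -(cm A X)ᴴ := by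
  simp only [cm, conjTranspose_sub, conjTranspose_mul, neg_sub]

omit [DecidableEq ι] in
theorem cm_ite (A X : Matrix ι ι ℂ) (p : Prop) [Decidable p] :
    cm A (if p then X else 0) = if p then cm A X else 0 := by
  split_ifs
  · rfl
  · exact cm_zero A

omit [DecidableEq ι] in
theorem cm_sum_left (φ : Λ → ℂ) (X : Λ → Matrix ι ι ℂ) (Y W : Matrix ι ι ℂ) (x : Λ)
    (h : ∀ z, cm (X z) Y = if z = x then W else 0) : cm (∑ z, φ z • X z) Y = φ x • W := by
  rw [cm_skew, cm_sum, ← Finset.sum_neg_distrib, Finset.sum_eq_single x]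
  · rw [cm_smul, ← smul_neg, ← cm_skew, h, if_pos rfl]
  · intro z _ hz
    rw [cm_smul, ← smul_neg, ← cm_skew, h, if_neg hz, smul_zero]
  · exact fun h => absurd (Finset.mem_univ x) h

/-- Commutation relations of raising operators `P` and third components `Z`. -/
structure SpinAlg (P Z : Λ → Matrix ι ι ℂ) : Prop where
  hZ : ∀ x, (Z x)ᴴ = Z x
  PQ : ∀ x y, cm (P x) (P y)ᴴ = if x = y then (2 : ℂ) • Z y else 0
  PZ : ∀ x y, cm (P x) (Z y) = if x = y then -P y else 0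
  PP : ∀ x y, cm (P x) (P y) = 0
  ZZ : ∀ x y, cm (Z x) (Z y) = 0

/-- The scalar product of two spins. -/
def ed (P Z : Λ → Matrix ι ι ℂ) (x y : Λ) : Matrix ι ι ℂ :=
  Z x * Z y + (1 / 2 : ℂ) • (P x * (P y)ᴴ + (P x)ᴴ * P y)

/-- The Hamiltonian of a graph. -/
def hg (adj : Λ → Λ → Prop) [DecidableRel adj] (P Z : Λ → Matrix ι ι ℂ) : Matrix ι ι ℂ :=
  -((1 / 2 : ℂ) • ∑ x, ∑ y, if adj x y then ed P Z x y else 0)

/-- The spin wave creation operator. -/
def sw (P : Λ → Matrix ι ι ℂ) (φ : Λ → ℂ) : Matrix ι ι ℂ := ∑ z, φ z • (P z)ᴴ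

omit [Fintype ι] [DecidableEq ι] [DecidableEq Λ] in
theorem sw_star (P : Λ → Matrix ι ι ℂ) (φ : Λ → ℂ) : (sw P φ)ᴴ = ∑ z, star (φ z) • P z := by
  simp only [sw, conjTranspose_sum, conjTranspose_smul, conjTranspose_conjTranspose]

namespace SpinAlg

variable {P Z : Λ → Matrix ι ι ℂ} (h : SpinAlg P Z)
include h

omit [DecidableEq ι] [Fintype Λ] in
theorem QZ (x y : Λ) : cm (P x)ᴴ (Z y) = if x = y then (P y)ᴴ else 0 := by
  rw [← h.hZ y, cm_star, h.PZ]
  split_ifs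
  · rw [conjTranspose_neg, neg_neg]
  · rw [conjTranspose_zero, neg_zero]

omit [DecidableEq ι] [Fintype Λ] in
theorem QP (x y : Λ) : cm (P x)ᴴ (P y) = if x = y then (-2 : ℂ) • Z y else 0 := by
  rw [cm_skew, h.PQ]
  by_cases hxy : x = y
  · rw [if_pos hxy.symm, if_pos hxy, hxy, neg_smul]
  · rw [if_neg (Ne.symm hxy), if_neg hxy, neg_zero]

omit [DecidableEq ι] [Fintype Λ] in
theorem QQ (x y : Λ) : cm (P x)ᴴ (P y)ᴴ = 0 := by
  rw [cm_star, h.PP, conjTranspose_zero, neg_zero]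

omit [DecidableEq ι] in
theorem sw_Z (φ : Λ → ℂ) (x : Λ) : cm (sw P φ) (Z x) = φ x • (P x)ᴴ :=
  cm_sum_left φ _ _ _ x fun z => h.QZ z x

omit [DecidableEq ι] in
theorem sw_P (φ : Λ → ℂ) (x : Λ) : cm (sw P φ) (P x) = φ x • (-2 : ℂ) • Z x :=
  cm_sum_left φ _ _ _ x fun z => h.QP z x

omit [DecidableEq ι] in
theorem sw_Q (φ : Λ → ℂ) (x : Λ) : cm (sw P φ) (P x)ᴴ = 0 := by
  rw [sw, cm_sum_left φ _ _ 0 x fun z => by rw [h.QQ, ite_self], smul_zero]

omit [DecidableEq ι] in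
theorem sw'_Z (φ : Λ → ℂ) (x : Λ) : cm (sw P φ)ᴴ (Z x) = star (φ x) • -P x := by
  rw [sw_star]
  exact cm_sum_left (fun z => star (φ z)) _ _ _ x fun z => h.PZ z x

omit [DecidableEq ι] in
theorem sw'_Q (φ : Λ → ℂ) (x : Λ) : cm (sw P φ)ᴴ (P x)ᴴ = star (φ x) • (2 : ℂ) • Z x := by
  rw [sw_star]
  exact cm_sum_left (fun z => star (φ z)) _ _ _ x fun z => h.PQ z x

omit [DecidableEq ι] in
theorem sw_ed (φ : Λ → ℂ) (x y : Λ) :
    cm (sw P φ) (ed P Z x y) = (φ x - φ y) • ((P x)ᴴ * Z y - Z x * (P y)ᴴ) := by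
  simp only [ed, cm_add, cm_smul, cm_mul, h.sw_Z, h.sw_P, h.sw_Q, mul_zero, zero_mul, add_zero,
    zero_add, smul_mul_assoc, mul_smul_comm]
  module

omit [DecidableEq ι] in
theorem sw'_T (φ : Λ → ℂ) (x y : Λ) :
    cm (sw P φ)ᴴ ((P x)ᴴ * Z y - Z x * (P y)ᴴ) = (2 * (star (φ x) - star (φ y))) • (Z x * Z y) +
      star (φ x) • (P x * (P y)ᴴ) - star (φ y) • ((P x)ᴴ * P y) := by
  simp only [cm_sub, cm_mul, h.sw'_Z, h.sw'_Q, smul_mul_assoc, mul_smul_comm, mul_neg, neg_mul]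
  module

omit [DecidableEq ι] in
theorem sw_M (φ : Λ → ℂ) : cm (sw P φ) (∑ x, Z x) = sw P φ := by
  rw [cm_sum]
  exact Finset.sum_congr rfl fun x _ => h.sw_Z φ x

omit [DecidableEq ι] in
theorem sw'_sw {φ : Λ → ℂ} (hφ : ∀ x, Complex.normSq (φ x) = 1) :
    cm (sw P φ)ᴴ (sw P φ) = ((2 : ℝ) : ℂ) • ∑ x, Z x := by
  conv_lhs => rw [sw.eq_1 P φ, cm_sum, ← sw.eq_1 P φ]
  rw [Finset.smul_sum]
  refine Finset.sum_congr rfl fun x _ => ?_
  rw [cm_smul, h.sw'_Q, smul_smul, Complex.star_def, Complex.mul_conj, hφ, Complex.ofReal_one,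
    one_smul, Complex.ofReal_ofNat]

omit [DecidableEq ι] [Fintype Λ] in
theorem ed_star (x y : Λ) : (ed P Z x y)ᴴ = ed P Z y x := by
  simp only [ed, conjTranspose_add, conjTranspose_smul, conjTranspose_mul, h.hZ,
    conjTranspose_conjTranspose]
  congr 2
  simp

omit [DecidableEq ι] in
theorem hg_herm {adj : Λ → Λ → Prop} [DecidableRel adj] (hs : ∀ x y, adj x y ↔ adj y x) :
    (hg adj P Z)ᴴ = hg adj P Z := by
  simp only [hg, conjTranspose_neg, conjTranspose_smul, conjTranspose_sum]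
  rw [Finset.sum_comm]
  congr 2
  · simp
  · refine Finset.sum_congr rfl fun x _ => Finset.sum_congr rfl fun y _ => ?_
    rw [apply_ite conjTranspose, h.ed_star, conjTranspose_zero]
    exact if_congr (hs y x) rfl rfl

omit [DecidableEq ι] in
theorem M_herm : (∑ x, Z x)ᴴ = ∑ x, Z x := by
  simp only [conjTranspose_sum, h.hZ]

omit [DecidableEq ι] in
theorem M_hg (adj : Λ → Λ → Prop) [DecidableRel adj] : cm (∑ x, Z x) (hg adj P Z) = 0 := by
  have e : ∑ x, Z x = ∑ x, (1 : ℂ) • Z x := by simp only [one_smul]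
  have h1 : ∀ x, cm (∑ x, Z x) (Z x) = 0 := fun x => by
    rw [e, cm_sum_left _ _ _ 0 x fun z => by rw [h.ZZ, ite_self], smul_zero]
  have h2 : ∀ x, cm (∑ x, Z x) (P x) = P x := fun x => by
    rw [e, cm_sum_left _ _ _ (P x) x fun z => ?_, one_smul]
    rw [cm_skew, h.PZ]
    by_cases hz : z = x
    · rw [if_pos hz.symm, if_pos hz, hz, neg_neg]
    · rw [if_neg (Ne.symm hz), if_neg hz, neg_zero]
  have h3 : ∀ x, cm (∑ x, Z x) (P x)ᴴ = -(P x)ᴴ := fun x => by
    rw [← h.M_herm, cm_star, h2]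
  have h4 : ∀ x y, cm (∑ x, Z x) (ed P Z x y) = 0 := fun x y => by
    simp only [ed, cm_add, cm_smul, cm_mul, h1, h2, h3, mul_neg, neg_mul, zero_mul, mul_zero,
      add_neg_cancel, neg_add_cancel, add_zero, smul_zero]
  simp only [hg, cm_neg, cm_smul, cm_sum _ Finset.univ (fun x => ∑ y, if adj x y then _ else 0),
    cm_sum _ Finset.univ (fun y => if adj _ y then _ else 0), cm_ite, h4, ite_self,
    Finset.sum_const_zero, smul_zero, neg_zero]

omit [DecidableEq ι] in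
theorem double {φ : Λ → ℂ} (hφ : ∀ x, Complex.normSq (φ x) = 1) (adj : Λ → Λ → Prop)
    [DecidableRel adj] (β t : ℝ) :
    cm (sw P φ)ᴴ (cm ((β : ℂ) • (hg adj P Z - (t : ℂ) • ∑ x, Z x)) (sw P φ)) =
      (β : ℂ) • ((((1 / 2 : ℝ) : ℂ) • ∑ x, ∑ y, if adj x y then
        (φ x - φ y) • ((2 * (star (φ x) - star (φ y))) • (Z x * Z y) +
          star (φ x) • (P x * (P y)ᴴ) - star (φ y) • ((P x)ᴴ * P y)) else 0) +
        ((2 * t : ℝ) : ℂ) • ∑ x, Z x) := by
  have e1 : cm (sw P φ) (hg adj P Z) = -((1 / 2 : ℂ) • ∑ x, ∑ y, if adj x y then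
      (φ x - φ y) • ((P x)ᴴ * Z y - Z x * (P y)ᴴ) else 0) := by
    rw [hg, cm_neg, cm_smul, cm_sum]
    congr 2
    refine Finset.sum_congr rfl fun x _ => ?_
    rw [cm_sum]
    exact Finset.sum_congr rfl fun y _ => by rw [cm_ite, h.sw_ed]
  have e2 : cm (sw P φ)ᴴ (∑ x, ∑ y, if adj x y then
      (φ x - φ y) • ((P x)ᴴ * Z y - Z x * (P y)ᴴ) else 0) = ∑ x, ∑ y, if adj x y then
        (φ x - φ y) • ((2 * (star (φ x) - star (φ y))) • (Z x * Z y) +
          star (φ x) • (P x * (P y)ᴴ) - star (φ y) • ((P x)ᴴ * P y)) else 0 := by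
    rw [cm_sum]
    refine Finset.sum_congr rfl fun x _ => ?_
    rw [cm_sum]
    exact Finset.sum_congr rfl fun y _ => by rw [cm_ite, cm_smul, h.sw'_T]
  rw [cm_skew _ (sw P φ), cm_smul, cm_sub, cm_smul, h.sw_M, e1, cm_neg, cm_smul, cm_sub, cm_neg,
    cm_smul, cm_smul, e2, h.sw'_sw hφ]
  push_cast
  module

theorem edge_le {K : Matrix ι ι ℂ} (hK : K.IsHermitian) {x y : Λ} (hxy : x ≠ y) :
    gs K (P x * (P y)ᴴ) + gs K ((P x)ᴴ * P y) ≤ gs K ((P x)ᴴ * P x) + gs K ((P y)ᴴ * P y) := by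
  have h1 := gs_star_mul hK (P x - P y)
  have h2 : P x * (P y)ᴴ = (P y)ᴴ * P x := sub_eq_zero.1 ((h.PQ x y).trans (if_neg hxy))
  rw [conjTranspose_sub, sub_mul, mul_sub, mul_sub, gs_sub, gs_sub, gs_sub] at h1
  rw [h2]
  linarith

/-- The bound on the double commutators of a wave and its conjugate. -/
theorem double_le {φ : Λ → ℂ} (hφ : ∀ x, Complex.normSq (φ x) = 1) {adj : Λ → Λ → Prop}
    [DecidableRel adj] (hs : ∀ x y, adj x y ↔ adj y x) (hi : ∀ x y, adj x y → x ≠ y) {β t S e : ℝ}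
    (hβ : 0 ≤ β) (hS : 0 ≤ S) {K : Matrix ι ι ℂ}
    (hK : K = (β : ℂ) • (hg adj P Z - (t : ℂ) • ∑ x, Z x)) (hH : K.IsHermitian)
    (he : ∀ x, ∑ y, (if adj x y then Complex.normSq (φ x - φ y) else 0) ≤ 2 * e)
    (h1 : ∀ x y, gs K (Z x * Z y) ≤ S ^ 2 * gs K 1)
    (h2 : ∀ x, gs K ((P x)ᴴ * P x) ≤ 2 * S * (S * gs K 1 - gs K (Z x)))
    (h3 : ∀ x, gs K (Z x) ≤ S * gs K 1) (h4 : 0 ≤ gs K 1) :
    gs K (cm (sw P φ)ᴴ (cm K (sw P φ))) + gs K (cm (sw P (star φ))ᴴ (cm K (sw P (star φ)))) ≤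
      4 * β * (S * e * (2 * (Fintype.card Λ * (S * gs K 1)) - gs K (∑ x, Z x)) +
        t * gs K (∑ x, Z x)) := by
  have hφ' : ∀ x, Complex.normSq (star φ x) = 1 := fun x => by
    rw [Pi.star_apply, Complex.star_def, Complex.normSq_conj, hφ]
  have e1 := h.double hφ adj β t
  have e2 := h.double hφ' adj β t
  rw [← hK] at e1 e2
  obtain ⟨a, ha⟩ : ∃ a : Λ → ℝ, ∀ x, a x = 2 * S * (2 * (S * gs K 1) - gs K (Z x)) :=
    ⟨_, fun _ => rfl⟩
  have ha0 : ∀ x, 0 ≤ a x := fun x => by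
    rw [ha]
    have := h3 x
    have := mul_nonneg hS h4
    exact mul_nonneg (by linarith) (by linarith)
  have key : ∀ x y, gs K (if adj x y then
        (φ x - φ y) • ((2 * (star (φ x) - star (φ y))) • (Z x * Z y) +
          star (φ x) • (P x * (P y)ᴴ) - star (φ y) • ((P x)ᴴ * P y)) else 0) +
      gs K (if adj x y then (star φ x - star φ y) •
        ((2 * (star (star φ x) - star (star φ y))) • (Z x * Z y) +
          star (star φ x) • (P x * (P y)ᴴ) - star (star φ y) • ((P x)ᴴ * P y)) else 0) ≤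
      (if adj x y then Complex.normSq (φ x - φ y) else 0) * a x +
        (if adj y x then Complex.normSq (φ y - φ x) else 0) * a y := fun x y => by
    by_cases hxy : adj x y
    · rw [if_pos hxy, if_pos hxy, if_pos hxy, if_pos ((hs x y).1 hxy), ← gs_add,
        ← neg_sub (φ x) (φ y), Complex.normSq_neg]
      have e3 : (φ x - φ y) • ((2 * (star (φ x) - star (φ y))) • (Z x * Z y) +
          star (φ x) • (P x * (P y)ᴴ) - star (φ y) • ((P x)ᴴ * P y)) + (star φ x - star φ y) •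
          ((2 * (star (star φ x) - star (star φ y))) • (Z x * Z y) +
          star (star φ x) • (P x * (P y)ᴴ) - star (star φ y) • ((P x)ᴴ * P y)) =
          ((Complex.normSq (φ x - φ y) : ℝ) : ℂ) •
            (((4 : ℝ) : ℂ) • (Z x * Z y) + P x * (P y)ᴴ + (P x)ᴴ * P y) := by
        have f1 : φ x * star (φ x) = 1 := by
          rw [Complex.star_def, Complex.mul_conj, hφ, Complex.ofReal_one]
        have f2 : φ y * star (φ y) = 1 := by
          rw [Complex.star_def, Complex.mul_conj, hφ, Complex.ofReal_one]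
        rw [← Complex.mul_conj, ← Complex.star_def, star_sub]
        simp only [Pi.star_apply, star_star, Complex.ofReal_ofNat]
        match_scalars
        · ring
        · linear_combination f1 - f2
        · linear_combination f2 - f1
      rw [e3, gs_smul, gs_add, gs_add, gs_smul, ← mul_add]
      refine mul_le_mul_of_nonneg_left ?_ (Complex.normSq_nonneg _)
      have f3 := h.edge_le hH (hi x y hxy)
      have f4 := h1 x y
      have f5 := h2 x
      have f6 := h2 y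
      rw [ha, ha]
      nlinarith
    · rw [if_neg hxy, if_neg hxy, if_neg hxy, if_neg fun h' => hxy ((hs x y).2 h'), gs_zero]
      simp
  have k2 : ∑ x, ∑ y, (if adj x y then Complex.normSq (φ x - φ y) else 0) * a x ≤
      2 * e * ∑ x, a x := by
    rw [Finset.mul_sum]
    refine Finset.sum_le_sum fun x _ => ?_
    rw [← Finset.sum_mul]
    exact mul_le_mul_of_nonneg_right (he x) (ha0 x)
  have k3 := Finset.sum_le_sum fun x (_ : x ∈ Finset.univ) =>
    Finset.sum_le_sum fun y (_ : y ∈ Finset.univ) => key x y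
  simp only [Finset.sum_add_distrib] at k3
  rw [Finset.sum_comm (f := fun x y =>
    (if adj y x then Complex.normSq (φ y - φ x) else 0) * a y)] at k3
  have k4 : ∑ x, a x = 2 * S * (2 * (Fintype.card Λ * (S * gs K 1)) - gs K (∑ x, Z x)) := by
    simp only [ha, ← Finset.mul_sum, Finset.sum_sub_distrib, gs_sum, Finset.sum_const,
      Finset.card_univ, nsmul_eq_mul]
    ring
  rw [e1, e2, gs_smul, gs_smul, gs_add, gs_add, gs_smul, gs_smul, gs_smul]
  rw [k4] at k2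
  simp only [gs_sum] at k2 ⊢
  nlinarith [mul_le_mul_of_nonneg_left k3 hβ, mul_le_mul_of_nonneg_left k2 hβ]

end SpinAlg

end Vale.Agent.P361
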