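import Vale.Agent.P361.Wave

/-! Infinite volume, zero field and low temperature limits. -/

noncomputable section

open Filter Topology MeasureTheory

namespace Vale.Agent.P361

/-- Gaussian mean over the Brillouin interval. -/
def gI (s : ℝ) : ℝ := (∫ x in (0 : ℝ)..Real.pi, Real.exp (-(s * x ^ 2))) / Real.pi

theorem gav_ge (N : ℕ) {s : ℝ} (hs : 0 ≤ s) : gI s - 1 / (2 * (N : ℝ) + 1) ≤ gav N s := by
  have hL : (0 : ℝ) < 2 * (N : ℝ) + 1 := by positivity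
  have hπ := Real.pi_pos
  obtain ⟨c, hc⟩ : ∃ c, c = 2 * Real.pi / (2 * (N : ℝ) + 1) := ⟨_, rfl⟩
  have hc0 : 0 < c := by
    rw [hc]
    positivity
  obtain ⟨F, hF⟩ : ∃ F : ℝ → ℝ, F = fun x => Real.exp (-(s * x ^ 2)) := ⟨_, rfl⟩
  have hFc : Continuous F := by
    rw [hF]
    fun_prop
  have e1 : ∑ q : Fin (2 * N + 1), Real.exp (-(s * mom N q ^ 2)) =
      2 * ∑ i ∈ Finset.range (N + 1), F (c * i) - 1 := by
    have e2 : ∀ q : Fin (2 * N + 1), Real.exp (-(s * mom N q ^ 2)) = F (c * (((q : ℕ) : ℝ) - N)) :=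
      fun q => by
        rw [hF, hc, mom, div_mul_eq_mul_div]
    simp only [e2]
    rw [Fin.sum_univ_eq_sum_range (fun q => F (c * ((q : ℝ) - N))),
      show 2 * N + 1 = N + (N + 1) by ring, Finset.sum_range_add, ← Finset.sum_range_reflect]
    have e3 : ∑ j ∈ Finset.range N, F (c * (((N - 1 - j : ℕ) : ℝ) - N)) =
        ∑ j ∈ Finset.range N, F (c * ((j + 1 : ℕ) : ℝ)) := Finset.sum_congr rfl fun j hj => by
      have h1 : N = (N - 1 - j) + (j + 1) := by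
        have := Finset.mem_range.1 hj
        omega
      have h2 : (N : ℝ) = ((N - 1 - j : ℕ) : ℝ) + ((j + 1 : ℕ) : ℝ) := by exact_mod_cast h1
      rw [hF]
      beta_reduce
      congr 3
      rw [sq_eq_sq_iff_eq_or_eq_neg]
      right
      linear_combination (-c) * h2
    have e4 := Finset.sum_range_succ' (fun i : ℕ => F (c * i)) N
    have e5 : F (c * ((0 : ℕ) : ℝ)) = 1 := by simp [hF]
    rw [e3]
    simp only [Nat.cast_add N, add_sub_cancel_left]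
    linarith
  have h1 : AntitoneOn (fun x => F (c * x)) (Set.Icc (0 : ℝ) (0 + ((N + 1 : ℕ) : ℝ))) :=
    fun x hx y _ hxy => by
      rw [hF]
      exact Real.exp_le_exp.2 (neg_le_neg (mul_le_mul_of_nonneg_left (pow_le_pow_left₀
        (mul_nonneg hc0.le hx.1) (mul_le_mul_of_nonneg_left hxy hc0.le) 2) hs))
  have h2 := h1.integral_le_sum
  simp only [zero_add] at h2
  rw [intervalIntegral.integral_comp_mul_left F hc0.ne', mul_zero, smul_eq_mul] at h2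
  have h3 : Real.pi ≤ c * ((N + 1 : ℕ) : ℝ) := by
    rw [hc, div_mul_eq_mul_div, le_div_iff₀ hL]
    push_cast
    nlinarith
  have h4 : ∫ x in (0 : ℝ)..Real.pi, F x ≤ ∫ x in (0 : ℝ)..c * ((N + 1 : ℕ) : ℝ), F x :=
    intervalIntegral.integral_mono_interval le_rfl hπ.le h3
      (ae_of_all _ fun x => by rw [hF]; exact Real.exp_nonneg _) (hFc.intervalIntegrable _ _)
  have h5 := mul_le_mul_of_nonneg_left h4 (inv_nonneg.2 hc0.le)
  have h6 : gI s * (2 * (N : ℝ) + 1) = 2 * (c⁻¹ * ∫ x in (0 : ℝ)..Real.pi, F x) := by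
    rw [gI, hc, hF]
    field_simp
  rw [gav, e1, le_div_iff₀ hL, sub_mul, h6, one_div, inv_mul_cancel₀ hL.ne']
  linarith

theorem gI_lim : Tendsto (fun s => √s * gI s) atTop (𝓝 (1 / (2 * √Real.pi))) := by
  have h1 := intervalIntegral_tendsto_integral_Ioi 0
    (integrable_exp_neg_mul_sq one_pos).integrableOn
    (Real.tendsto_sqrt_atTop.atTop_mul_const Real.pi_pos)
  rw [integral_gaussian_Ioi, div_one] at h1
  have h2 := h1.div_const Real.pi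
  have e : √Real.pi / 2 / Real.pi = 1 / (2 * √Real.pi) := by
    have h3 := Real.sqrt_pos.2 Real.pi_pos
    rw [div_div, div_eq_div_iff (by positivity) (by positivity)]
    linear_combination 2 * Real.mul_self_sqrt Real.pi_pos.le
  rw [e] at h2
  refine h2.congr' ?_
  filter_upwards [eventually_gt_atTop 0] with s hs
  have h3 := Real.sqrt_pos.2 hs
  have h4 := intervalIntegral.integral_comp_mul_left (a := 0) (b := Real.pi)
    (fun x => Real.exp (-1 * x ^ 2)) h3.ne'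
  simp only [mul_zero, smul_eq_mul, mul_pow, Real.sq_sqrt hs.le, neg_mul, one_mul] at h4
  simp only [neg_mul, one_mul]
  rw [gI, h4]
  field_simp

theorem mag_le {n : ℕ} (hn : 0 < n) {β τ t : ℝ} (hβ : 0 < β) (hτ : 1 < τ) (ht : 0 < t) (J N : ℕ) :
    min ((n : ℝ) / 2 * (τ - 1) / (τ + 1))
      (τ⁻¹ * ∑ l ∈ Finset.range J, Real.exp (-(((l : ℝ) + 1) * (β * t))) *
        (gI (((l : ℝ) + 1) * (β * (τ * ((n : ℝ) / 2)))) - 1 / (2 * (N : ℝ) + 1)) ^ 3) ≤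
      (n : ℝ) / 2 - magN n N β t := by
  have hτ0 : 0 < τ := one_pos.trans hτ
  by_cases hm : 2 * ((n : ℝ) / 2) ≤ (1 + τ) * magN n N β t
  · refine (min_le_right _ _).trans ?_
    rw [inv_mul_le_iff₀ hτ0]
    refine le_trans (Finset.sum_le_sum fun l _ => mul_le_mul_of_nonneg_left ?_
      (Real.exp_nonneg _)) (finite_vol hn hβ ht hτ.le hm J)
    exact (Odd.pow_le_pow (by decide)).2 (gav_ge N (by positivity))
  · refine (min_le_left _ _).trans ?_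
    rw [div_le_iff₀ (by linarith)]
    linarith [not_le.1 hm]

theorem tend_N (n J : ℕ) (β τ t : ℝ) : Tendsto (fun N : ℕ => min ((n : ℝ) / 2 * (τ - 1) / (τ + 1))
      (τ⁻¹ * ∑ l ∈ Finset.range J, Real.exp (-(((l : ℝ) + 1) * (β * t))) *
        (gI (((l : ℝ) + 1) * (β * (τ * ((n : ℝ) / 2)))) - 1 / (2 * (N : ℝ) + 1)) ^ 3)) atTop
    (𝓝 (min ((n : ℝ) / 2 * (τ - 1) / (τ + 1))
      (τ⁻¹ * ∑ l ∈ Finset.range J, Real.exp (-(((l : ℝ) + 1) * (β * t))) *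
        gI (((l : ℝ) + 1) * (β * (τ * ((n : ℝ) / 2)))) ^ 3))) := by
  have h0 : Tendsto (fun N : ℕ => 1 / (2 * (N : ℝ) + 1)) atTop (𝓝 0) :=
    tendsto_const_nhds.div_atTop (tendsto_atTop_add_const_right _ _
      (tendsto_natCast_atTop_atTop.const_mul_atTop two_pos))
  have h1 : Tendsto (fun N : ℕ => min ((n : ℝ) / 2 * (τ - 1) / (τ + 1))
      (τ⁻¹ * ∑ l ∈ Finset.range J, Real.exp (-(((l : ℝ) + 1) * (β * t))) *
        (gI (((l : ℝ) + 1) * (β * (τ * ((n : ℝ) / 2)))) - 1 / (2 * (N : ℝ) + 1)) ^ 3)) atTop _ :=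
    tendsto_const_nhds.min ((tendsto_finsetSum _ fun l _ =>
      ((tendsto_const_nhds.sub h0).pow 3).const_mul _).const_mul _)
  simpa only [sub_zero] using h1

theorem tend_t (n J : ℕ) (β τ : ℝ) : Tendsto (fun t : ℝ => min ((n : ℝ) / 2 * (τ - 1) / (τ + 1))
      (τ⁻¹ * ∑ l ∈ Finset.range J, Real.exp (-(((l : ℝ) + 1) * (β * t))) *
        gI (((l : ℝ) + 1) * (β * (τ * ((n : ℝ) / 2)))) ^ 3)) (𝓝[>] 0)
    (𝓝 (min ((n : ℝ) / 2 * (τ - 1) / (τ + 1)) (τ⁻¹ * ∑ l ∈ Finset.range J,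
      gI (((l : ℝ) + 1) * (β * (τ * ((n : ℝ) / 2)))) ^ 3))) := by
  have h2 : Continuous fun t : ℝ => min ((n : ℝ) / 2 * (τ - 1) / (τ + 1))
      (τ⁻¹ * ∑ l ∈ Finset.range J, Real.exp (-(((l : ℝ) + 1) * (β * t))) *
        gI (((l : ℝ) + 1) * (β * (τ * ((n : ℝ) / 2)))) ^ 3) := by fun_prop
  have h3 := (h2.tendsto 0).mono_left (nhdsWithin_le_nhds (s := Set.Ioi 0))
  simpa only [mul_zero, neg_zero, Real.exp_zero, one_mul] using h3

theorem field_lim {n : ℕ} (hn : 0 < n) {β τ m : ℝ} {p : ℝ → ℝ} (hβ : 0 < β) (hτ : 1 < τ) (J : ℕ)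
    (hp : ∀ t, Tendsto (fun N => pressN n N β t) atTop (𝓝 (p t)))
    (hm : HasDerivWithinAt p m (Set.Ici 0) 0) :
    min ((n : ℝ) / 2 * (τ - 1) / (τ + 1)) (τ⁻¹ * ∑ l ∈ Finset.range J,
      gI (((l : ℝ) + 1) * (β * (τ * ((n : ℝ) / 2)))) ^ 3) ≤ (n : ℝ) / 2 - m := by
  have h1 := (hasDerivWithinAt_iff_tendsto_slope' (Set.self_notMem_Ioi)).1 hm.Ioi_of_Ici
  rw [le_sub_comm]
  refine le_of_tendsto_of_tendsto h1 (tendsto_const_nhds.sub (tend_t n J β τ)) ?_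
  filter_upwards [self_mem_nhdsWithin] with t ht
  rw [slope_def_field, sub_zero, div_le_iff₀' ht]
  exact le_of_tendsto_of_tendsto' ((hp t).sub (hp 0))
    ((tendsto_const_nhds.sub (tend_N n J β τ t)).const_mul t) fun N => (press_le hβ).trans
      (mul_le_mul_of_nonneg_left (le_sub_comm.1 (mag_le hn hβ hτ ht J N)) (le_of_lt ht))

theorem zeta_sum : HasSum (fun l : ℕ => (1 / √((l : ℝ) + 1)) ^ 3) (riemannZeta (3 / 2)).re := by
  have e : ∀ l : ℕ, (1 / √((l : ℝ) + 1)) ^ 3 = 1 / ((l : ℝ) + 1) ^ (3 / 2 : ℝ) := fun l => by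
    rw [div_pow, one_pow, Real.sqrt_eq_rpow, ← Real.rpow_natCast, ← Real.rpow_mul (by positivity)]
    norm_num
  simp only [e]
  have h1 : Summable fun l : ℕ => 1 / ((l : ℝ) + 1) ^ (3 / 2 : ℝ) := by
    have h2 := (summable_nat_add_iff 1).2
      (Real.summable_one_div_nat_rpow.2 (show (1 : ℝ) < 3 / 2 by norm_num))
    simpa only [Nat.cast_add, Nat.cast_one] using h2
  have h3 : riemannZeta (3 / 2) = ((∑' l : ℕ, 1 / ((l : ℝ) + 1) ^ (3 / 2 : ℝ) : ℝ) : ℂ) := by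
    rw [zeta_eq_tsum_one_div_nat_add_one_cpow (by norm_num), Complex.ofReal_tsum]
    refine tsum_congr fun l => ?_
    rw [Complex.ofReal_div, Complex.ofReal_cpow (by positivity)]
    push_cast
    rfl
  rw [h3, Complex.ofReal_re]
  exact h1.hasSum

theorem cube_sqrt {x : ℝ} (hx : 0 ≤ x) : x ^ (3 / 2 : ℝ) = √x ^ 3 := by
  rw [Real.sqrt_eq_rpow, ← Real.rpow_natCast, ← Real.rpow_mul hx]
  norm_num

theorem low_temp {n : ℕ} (hn : 0 < n) {c : ℝ} (hc : c < (riemannZeta (3 / 2)).re /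
      (8 * Real.pi ^ (3 / 2 : ℝ) * ((n : ℝ) / 2) ^ (3 / 2 : ℝ))) :
    ∃ (τ : ℝ) (J : ℕ), 1 < τ ∧ ∀ᶠ β : ℝ in atTop, 0 < β ∧ c < β ^ (3 / 2 : ℝ) *
      min ((n : ℝ) / 2 * (τ - 1) / (τ + 1)) (τ⁻¹ * ∑ l ∈ Finset.range J,
        gI (((l : ℝ) + 1) * (β * (τ * ((n : ℝ) / 2)))) ^ 3) := by
  have hS : (0 : ℝ) < (n : ℝ) / 2 := by positivity
  have hπ := Real.sqrt_pos.2 Real.pi_pos
  have hS' := Real.sqrt_pos.2 hS
  rw [cube_sqrt Real.pi_pos.le, cube_sqrt hS.le] at hc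
  obtain ⟨J, hJ⟩ := ((zeta_sum.tendsto_sum_nat.div_const _).eventually (lt_mem_nhds hc)).exists
  have h1 : ContinuousAt (fun τ : ℝ => τ⁻¹ * ∑ l ∈ Finset.range J,
      (1 / (2 * √Real.pi) / √(((l : ℝ) + 1) * (τ * ((n : ℝ) / 2)))) ^ 3) 1 := by
    refine (continuousAt_inv₀ one_ne_zero).mul (tendsto_finsetSum _ fun l _ => ?_)
    refine ContinuousAt.pow (ContinuousAt.div continuousAt_const (by fun_prop) ?_) 3
    positivity
  have h2 : c < (1 : ℝ)⁻¹ * ∑ l ∈ Finset.range J,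
      (1 / (2 * √Real.pi) / √(((l : ℝ) + 1) * (1 * ((n : ℝ) / 2)))) ^ 3 := by
    refine hJ.trans_le (le_of_eq ?_)
    rw [inv_one, one_mul, Finset.sum_div]
    refine Finset.sum_congr rfl fun l _ => ?_
    have h3 : 0 < √((l : ℝ) + 1) := by positivity
    rw [one_mul, Real.sqrt_mul (by positivity)]
    field_simp
    norm_num
  obtain ⟨τ, h3, hτ⟩ := (((h1.eventually (lt_mem_nhds h2)).filter_mono
    (nhdsWithin_le_nhds (s := Set.Ioi 1))).and self_mem_nhdsWithin).exists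
  have hτ1 : 1 < τ := hτ
  have hτ0 : 0 < τ := one_pos.trans hτ1
  have h4 : Tendsto (fun β : ℝ => τ⁻¹ * ∑ l ∈ Finset.range J,
      (√β * gI (((l : ℝ) + 1) * (β * (τ * ((n : ℝ) / 2))))) ^ 3) atTop (𝓝 (τ⁻¹ *
        ∑ l ∈ Finset.range J,
          (1 / (2 * √Real.pi) / √(((l : ℝ) + 1) * (τ * ((n : ℝ) / 2)))) ^ 3)) := by
    refine (tendsto_finsetSum _ fun l _ => Tendsto.pow ?_ 3).const_mul _
    have h5 : 0 < ((l : ℝ) + 1) * (τ * ((n : ℝ) / 2)) := by positivity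
    refine ((gI_lim.comp (tendsto_id.atTop_mul_const h5)).div_const _).congr' ?_
    filter_upwards [eventually_gt_atTop 0] with β hβ
    have h6 := Real.sqrt_pos.2 h5
    simp only [Function.comp, id]
    rw [Real.sqrt_mul hβ.le, mul_left_comm β]
    field_simp
  have h5 : 0 < (n : ℝ) / 2 * (τ - 1) / (τ + 1) := div_pos (mul_pos hS (sub_pos.2 hτ1)) (by linarith)
  have h6 := ((tendsto_pow_atTop three_ne_zero).comp Real.tendsto_sqrt_atTop).atTop_mul_const h5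
  refine ⟨τ, J, hτ1, ?_⟩
  filter_upwards [h4.eventually (lt_mem_nhds h3), h6.eventually_gt_atTop c, eventually_gt_atTop 0]
    with β h7 h8 hβ
  refine ⟨hβ, ?_⟩
  rw [cube_sqrt hβ.le, mul_min_of_nonneg _ _ (by positivity)]
  refine lt_min h8 (h7.trans_le (le_of_eq ?_))
  simp only [mul_pow, ← Finset.mul_sum]
  ring

theorem bloch_lower {n : ℕ} (hn : 0 < n) {p : ℝ → ℝ → ℝ} {m : ℝ → ℝ}
    (hp : ∀ β, 0 < β → ∀ t, Tendsto (fun N => pressN n N β t) atTop (𝓝 (p β t)))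
    (hm : ∀ β, 0 < β → HasDerivWithinAt (p β) (m β) (Set.Ici 0) 0) {c : ℝ}
    (hc : c < (riemannZeta (3 / 2)).re /
      (8 * Real.pi ^ (3 / 2 : ℝ) * ((n : ℝ) / 2) ^ (3 / 2 : ℝ))) :
    ∀ᶠ β in atTop, c ≤ β ^ (3 / 2 : ℝ) * ((n : ℝ) / 2 - m β) := by
  obtain ⟨τ, J, hτ, h⟩ := low_temp hn hc
  filter_upwards [h] with β ⟨hβ, h1⟩
  exact h1.le.trans (mul_le_mul_of_nonneg_left (field_lim hn hβ hτ J (hp β hβ) (hm β hβ))
    (by positivity))

theorem bloch_fin {n : ℕ} (hn : 0 < n) {c : ℝ} (hc : c < (riemannZeta (3 / 2)).re /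
      (8 * Real.pi ^ (3 / 2 : ℝ) * ((n : ℝ) / 2) ^ (3 / 2 : ℝ))) :
    ∀ᶠ β : ℝ in atTop, ∀ᶠ t : ℝ in 𝓝[>] 0, ∀ᶠ N : ℕ in atTop,
      c ≤ β ^ (3 / 2 : ℝ) * ((n : ℝ) / 2 - gibbsMag n N β t) := by
  obtain ⟨τ, J, hτ, h⟩ := low_temp hn hc
  filter_upwards [h] with β ⟨hβ, h1⟩
  filter_upwards [((tend_t n J β τ).const_mul _).eventually (lt_mem_nhds h1), self_mem_nhdsWithin]
    with t h2 ht
  filter_upwards [((tend_N n J β τ t).const_mul _).eventually (lt_mem_nhds h2)] with N h3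
  have e : gibbsMag n N β t = magN n N β t := by rw [gibbsMag, magN, gs, gs, mul_one, KK]
  rw [e]
  exact h3.le.trans (mul_le_mul_of_nonneg_left (mag_le hn hβ hτ ht J N) (by positivity))

end Vale.Agent.P361
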