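import Mathlib

/-! Definitions for the quantum Heisenberg ferromagnet on a cube with free boundary conditions. -/

noncomputable section

open Matrix

namespace Vale.Agent.P361

/-- The raising operator of spin `S = n / 2`; the basis vector `j` has magnetic number `S - j`. -/
def sPlus (n : ℕ) : Matrix (Fin (n + 1)) (Fin (n + 1)) ℂ :=
  Matrix.of fun i j =>
    if (j : ℕ) = (i : ℕ) + 1 then (Real.sqrt (((j : ℕ) : ℝ) * ((n : ℝ) + 1 - ((j : ℕ) : ℝ))) : ℂ)
    else 0

/-- The three spin matrices of spin `S = n / 2`. -/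
def spin (n : ℕ) : Fin 3 → Matrix (Fin (n + 1)) (Fin (n + 1)) ℂ :=
  ![(1 / 2 : ℂ) • (sPlus n + (sPlus n)ᴴ), (1 / (2 * Complex.I) : ℂ) • (sPlus n - (sPlus n)ᴴ),
    Matrix.diagonal fun i => (n : ℂ) / 2 - ((i : ℕ) : ℂ)]

/-- The cube of side `2 N + 1`. -/
abbrev Site (N : ℕ) : Type := Fin 3 → Fin (2 * N + 1)

/-- Basis of the tensor product over the sites. -/
abbrev Conf (n N : ℕ) : Type := Site N → Fin (n + 1)

/-- The matrix `A` acting at the site `x`, identity at the other sites. -/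
def atSite {n N : ℕ} (x : Site N) (A : Matrix (Fin (n + 1)) (Fin (n + 1)) ℂ) :
    Matrix (Conf n N) (Conf n N) ℂ :=
  Matrix.of fun σ τ => if ∀ y, y ≠ x → σ y = τ y then A (σ x) (τ x) else 0

/-- Nearest neighbours. -/
def Adj {N : ℕ} (x y : Site N) : Prop := ∑ j, |((x j : ℕ) : ℤ) - ((y j : ℕ) : ℤ)| = 1

instance {N : ℕ} (x y : Site N) : Decidable (Adj x y) :=
  inferInstanceAs (Decidable (∑ j, |((x j : ℕ) : ℤ) - ((y j : ℕ) : ℤ)| = 1))

/-- The Hamiltonian; the factor one half counts every edge once. -/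
def ham (n N : ℕ) : Matrix (Conf n N) (Conf n N) ℂ :=
  -((1 / 2 : ℂ) • ∑ x : Site N, ∑ y : Site N,
    if Adj x y then ∑ a : Fin 3, atSite x (spin n a) * atSite y (spin n a) else 0)

/-- The total magnetization. -/
def mag (n N : ℕ) : Matrix (Conf n N) (Conf n N) ℂ := ∑ x : Site N, atSite x (spin n 2)

/-- The finite volume pressure. -/
def pressN (n N : ℕ) (β h : ℝ) : ℝ :=
  1 / (β * (2 * (N : ℝ) + 1) ^ 3) *
    Real.log (Matrix.trace (NormedSpace.exp (-((β : ℂ) • (ham n N - (h : ℂ) • mag n N))))).re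

/-- The Gibbs expectation of the magnetization per site in finite volume. -/
def gibbsMag (n N : ℕ) (β h : ℝ) : ℝ :=
  (Matrix.trace (NormedSpace.exp (-((β : ℂ) • (ham n N - (h : ℂ) • mag n N))) * mag n N)).re /
    (Matrix.trace (NormedSpace.exp (-((β : ℂ) • (ham n N - (h : ℂ) • mag n N))))).re /
      (2 * (N : ℝ) + 1) ^ 3

end Vale.Agent.P361
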