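import Vale.Agent.P361.Spin

/-! The spin matrices have the standard normalization. -/

noncomputable section

open Matrix

namespace Vale.Agent.P361

theorem spin_norm (n : ℕ) : (∀ a, (spin n a).IsHermitian) ∧
    spin n 0 * spin n 1 - spin n 1 * spin n 0 = Complex.I • spin n 2 ∧
    spin n 1 * spin n 2 - spin n 2 * spin n 1 = Complex.I • spin n 0 ∧
    spin n 2 * spin n 0 - spin n 0 * spin n 2 = Complex.I • spin n 1 ∧
    ∑ a, spin n a * spin n a = ((n : ℂ) / 2 * ((n : ℂ) / 2 + 1)) • 1 := by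
  have e0 : spin n 0 = (1 / 2 : ℂ) • (sPlus n + (sPlus n)ᴴ) := rfl
  have e1 : spin n 1 = (-Complex.I / 2 : ℂ) • (sPlus n - (sPlus n)ᴴ) := by
    change (1 / (2 * Complex.I) : ℂ) • (sPlus n - (sPlus n)ᴴ) = _
    congr 1
    rw [div_eq_div_iff (mul_ne_zero two_ne_zero Complex.I_ne_zero) two_ne_zero]
    linear_combination 2 * Complex.I_mul_I
  have hZ : (spin n 2)ᴴ = spin n 2 := by
    rw [spin_two, diagonal_conjTranspose]
    congr 1
    funext i
    exact Complex.conj_ofReal _
  have h1 : sPlus n * (sPlus n)ᴴ = (sPlus n)ᴴ * sPlus n + (2 : ℂ) • spin n 2 :=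
    sub_eq_iff_eq_add'.1 sp_cm_PQ
  have h2 : sPlus n * spin n 2 = spin n 2 * sPlus n - sPlus n :=
    (sub_eq_iff_eq_add'.1 sp_cm_PZ).trans (sub_eq_add_neg _ _).symm
  have h3 : (sPlus n)ᴴ * spin n 2 = spin n 2 * (sPlus n)ᴴ + (sPlus n)ᴴ := by
    have h4 := congrArg conjTranspose h2
    rw [conjTranspose_mul, conjTranspose_sub, conjTranspose_mul, hZ] at h4
    rw [h4, sub_add_cancel]
  have h5 : (sPlus n)ᴴ * sPlus n + spin n 2 + spin n 2 * spin n 2 =
      ((n : ℂ) / 2 * ((n : ℂ) / 2 + 1)) • 1 := by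
    rw [sp_QP, spin_two, diagonal_mul_diagonal, diagonal_add, diagonal_add, smul_one_eq_diagonal]
    congr 1
    funext i
    push_cast
    ring
  have hI := Complex.I_mul_I
  refine ⟨fun a => ?_, ?_, ?_, ?_, ?_⟩
  · fin_cases a
    · change (spin n 0)ᴴ = spin n 0
      rw [e0, conjTranspose_smul, conjTranspose_add, conjTranspose_conjTranspose, add_comm (sPlus n)ᴴ]
      simp
    · change (spin n 1)ᴴ = spin n 1
      rw [e1, conjTranspose_smul, conjTranspose_sub, conjTranspose_conjTranspose,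
        ← neg_sub (sPlus n), smul_neg, ← neg_smul]
      congr 1
      simp [neg_div]
    · exact hZ
  · simp only [e0, e1, smul_mul_smul_comm, mul_add, add_mul, mul_sub, sub_mul, h1]
    match_scalars <;> ring
  · simp only [e0, e1, smul_mul_assoc, mul_smul_comm, mul_add, add_mul, mul_sub, sub_mul, h2, h3]
    match_scalars <;> ring
  · simp only [e0, e1, smul_mul_assoc, mul_smul_comm, mul_add, add_mul, mul_sub, sub_mul, h2, h3]
    match_scalars <;> first
      | ring1
      | linear_combination (1 / 2 : ℂ) * hI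
      | linear_combination (-1 / 2 : ℂ) * hI
  · rw [Fin.sum_univ_three, ← h5]
    simp only [e0, e1, smul_mul_smul_comm, mul_add, add_mul, mul_sub, sub_mul, h1]
    match_scalars
    · linear_combination (1 / 4 : ℂ) * hI
    · linear_combination (-1 / 2 : ℂ) * hI
    · linear_combination (-1 / 2 : ℂ) * hI
    · linear_combination (1 / 4 : ℂ) * hI
    · ring

end Vale.Agent.P361
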