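import Vale.Agent.P361.Defs
import Vale.Agent.P361.Alg

/-! The concrete spin matrices satisfy the commutation relations. -/

noncomputable section

open Matrix

namespace Vale.Agent.P361

variable {n N : ℕ}

theorem sp_rad (j : Fin (n + 1)) : 0 ≤ ((j : ℕ) : ℝ) * ((n : ℝ) + 1 - ((j : ℕ) : ℝ)) := by
  have h : ((j : ℕ) : ℝ) ≤ n := by exact_mod_cast Nat.lt_succ_iff.1 j.2
  exact mul_nonneg (Nat.cast_nonneg _) (by linarith)

theorem sp_sq (j : Fin (n + 1)) :
    (Real.sqrt (((j : ℕ) : ℝ) * ((n : ℝ) + 1 - ((j : ℕ) : ℝ))) : ℂ) *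
      (Real.sqrt (((j : ℕ) : ℝ) * ((n : ℝ) + 1 - ((j : ℕ) : ℝ))) : ℂ) =
      ((((j : ℕ) : ℝ) * ((n : ℝ) + 1 - ((j : ℕ) : ℝ)) : ℝ) : ℂ) := by
  rw [← Complex.ofReal_mul, Real.mul_self_sqrt (sp_rad j)]

theorem sp_star (i j : Fin (n + 1)) : star (sPlus n i j) = sPlus n i j := by
  rw [sPlus, of_apply]
  split_ifs
  · exact Complex.conj_ofReal _
  · exact star_zero _

theorem sp_QP : (sPlus n)ᴴ * sPlus n =
    diagonal fun j : Fin (n + 1) => ((((j : ℕ) : ℝ) * ((n : ℝ) + 1 - ((j : ℕ) : ℝ)) : ℝ) : ℂ) := by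
  ext j k
  rw [mul_apply]
  simp only [conjTranspose_apply, sp_star]
  simp only [sPlus, of_apply]
  by_cases hjk : j = k
  · subst hjk
    rw [diagonal_apply_eq]
    rcases Nat.eq_zero_or_pos (j : ℕ) with h | h
    · rw [Finset.sum_eq_zero fun i _ => by rw [if_neg (by omega), zero_mul], h]
      simp
    · rw [Finset.sum_eq_single ⟨(j : ℕ) - 1, by omega⟩, if_pos (by simp only; omega), sp_sq]
      · intro i _ hi
        rw [if_neg fun h' => hi (Fin.ext (by simp only; omega)), zero_mul]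
      · exact fun h => absurd (Finset.mem_univ _) h
  · rw [diagonal_apply_ne _ hjk]
    refine Finset.sum_eq_zero fun i _ => ?_
    split_ifs with h1 h2
    · exact absurd (Fin.ext (h1.trans h2.symm)) hjk
    · exact mul_zero _
    · exact zero_mul _
    · exact zero_mul _

theorem sp_PQ : sPlus n * (sPlus n)ᴴ =
    diagonal fun i : Fin (n + 1) => (((((i : ℕ) : ℝ) + 1) * ((n : ℝ) - ((i : ℕ) : ℝ)) : ℝ) : ℂ) := by
  ext i k
  rw [mul_apply]
  simp only [conjTranspose_apply, sp_star]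
  simp only [sPlus, of_apply]
  by_cases hik : i = k
  · subst hik
    rw [diagonal_apply_eq]
    rcases (Nat.lt_succ_iff.1 i.2).eq_or_lt with h | h
    · rw [Finset.sum_eq_zero fun j _ => by rw [if_neg (by omega), zero_mul], h]
      simp
    · rw [Finset.sum_eq_single ⟨(i : ℕ) + 1, by omega⟩, if_pos rfl, sp_sq]
      · push_cast
        ring
      · intro j _ hj
        rw [if_neg fun h' => hj (Fin.ext h'), zero_mul]
      · exact fun h => absurd (Finset.mem_univ _) h
  · rw [diagonal_apply_ne _ hik]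
    refine Finset.sum_eq_zero fun j _ => ?_
    split_ifs with h1 h2
    · exact absurd (Fin.ext (by omega)) hik
    · exact mul_zero _
    · exact zero_mul _
    · exact zero_mul _

theorem spin_two : spin n 2 = diagonal fun i : Fin (n + 1) => (((n : ℝ) / 2 - ((i : ℕ) : ℝ) : ℝ) : ℂ) := by
  change (diagonal fun i : Fin (n + 1) => (n : ℂ) / 2 - ((i : ℕ) : ℂ)) = _
  congr 1
  funext i
  push_cast
  rfl

theorem sp_cm_PQ : cm (sPlus n) (sPlus n)ᴴ = (2 : ℂ) • spin n 2 := by
  rw [cm, sp_PQ, sp_QP, spin_two, diagonal_sub, ← diagonal_smul]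
  congr 1
  funext i
  rw [Pi.smul_apply, smul_eq_mul]
  push_cast
  ring

theorem sp_cm_PZ : cm (sPlus n) (spin n 2) = -sPlus n := by
  ext i j
  rw [cm, spin_two, Matrix.sub_apply, mul_diagonal, diagonal_mul, Matrix.neg_apply, sPlus, of_apply]
  split_ifs with h
  · rw [h]
    push_cast
    ring
  · simp

theorem atSite_eq (x : Site N) (A : Matrix (Fin (n + 1)) (Fin (n + 1)) ℂ) (σ τ : Conf n N) :
    atSite x A σ τ = ∏ y, (Function.update (fun _ => 1) x A :
      Site N → Matrix (Fin (n + 1)) (Fin (n + 1)) ℂ) y (σ y) (τ y) := by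
  rw [← Finset.mul_prod_erase _ _ (Finset.mem_univ x), Function.update_self, atSite, of_apply]
  split_ifs with h
  · rw [Finset.prod_eq_one, mul_one]
    intro y hy
    rw [Function.update_of_ne (Finset.ne_of_mem_erase hy), h y (Finset.ne_of_mem_erase hy),
      one_apply_eq]
  · push Not at h
    obtain ⟨y, h1, h2⟩ := h
    rw [Finset.prod_eq_zero (Finset.mem_erase.2 ⟨h1, Finset.mem_univ y⟩), mul_zero]
    rw [Function.update_of_ne h1, one_apply_ne h2]

theorem atSite_mul_apply (x y : Site N) (A B : Matrix (Fin (n + 1)) (Fin (n + 1)) ℂ)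
    (σ τ : Conf n N) : (atSite x A * atSite y B) σ τ =
      ∏ z, ((Function.update (fun _ => 1) x A : Site N → Matrix (Fin (n + 1)) (Fin (n + 1)) ℂ) z *
        (Function.update (fun _ => 1) y B : Site N → Matrix (Fin (n + 1)) (Fin (n + 1)) ℂ) z)
          (σ z) (τ z) := by
  simp only [mul_apply, atSite_eq, ← Finset.prod_mul_distrib]
  rw [Finset.prod_univ_sum, Fintype.piFinset_univ]

theorem atSite_mul (x : Site N) (A B : Matrix (Fin (n + 1)) (Fin (n + 1)) ℂ) :
    atSite x A * atSite x B = atSite (N := N) x (A * B) := by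
  ext σ τ
  rw [atSite_mul_apply, atSite_eq]
  refine Finset.prod_congr rfl fun z _ => ?_
  by_cases h : z = x
  · subst h
    simp only [Function.update_self]
  · simp only [Function.update_of_ne h, mul_one]

theorem atSite_cm_ne {x y : Site N} (h : x ≠ y) (A B : Matrix (Fin (n + 1)) (Fin (n + 1)) ℂ) :
    cm (atSite x A) (atSite y B) = 0 := by
  rw [cm, sub_eq_zero]
  ext σ τ
  rw [atSite_mul_apply, atSite_mul_apply]
  refine Finset.prod_congr rfl fun z _ => ?_
  by_cases hz : z = x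
  · subst hz
    simp only [Function.update_of_ne h, mul_one, one_mul]
  · simp only [Function.update_of_ne hz, mul_one, one_mul]

theorem atSite_add (x : Site N) (A B : Matrix (Fin (n + 1)) (Fin (n + 1)) ℂ) :
    atSite x (A + B) = atSite x A + atSite x B := by
  ext σ τ
  simp only [atSite, of_apply, Matrix.add_apply]
  split_ifs
  · rfl
  · exact (add_zero 0).symm

theorem atSite_smul (x : Site N) (c : ℂ) (A : Matrix (Fin (n + 1)) (Fin (n + 1)) ℂ) :
    atSite x (c • A) = c • atSite x A := by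
  ext σ τ
  simp only [atSite, of_apply, Matrix.smul_apply]
  split_ifs
  · rfl
  · exact (smul_zero c).symm

theorem atSite_neg (x : Site N) (A : Matrix (Fin (n + 1)) (Fin (n + 1)) ℂ) :
    atSite x (-A) = -atSite x A := by
  rw [← neg_one_smul ℂ A, atSite_smul, neg_one_smul]

theorem atSite_sub (x : Site N) (A B : Matrix (Fin (n + 1)) (Fin (n + 1)) ℂ) :
    atSite x (A - B) = atSite x A - atSite x B := by
  rw [sub_eq_add_neg, atSite_add, atSite_neg, sub_eq_add_neg]

theorem atSite_star (x : Site N) (A : Matrix (Fin (n + 1)) (Fin (n + 1)) ℂ) :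
    (atSite x A)ᴴ = atSite x Aᴴ := by
  ext σ τ
  simp only [atSite, of_apply, conjTranspose_apply, apply_ite star, star_zero]
  exact if_congr (forall_congr' fun y => imp_congr_right fun _ => eq_comm) rfl rfl

theorem atSite_diag (x : Site N) (d : Fin (n + 1) → ℂ) :
    atSite x (diagonal d) = diagonal fun σ : Conf n N => d (σ x) := by
  ext σ τ
  rw [atSite, of_apply]
  by_cases h : σ = τ
  · subst h
    rw [if_pos fun _ _ => rfl, diagonal_apply_eq, diagonal_apply_eq]
  · rw [diagonal_apply_ne _ h]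
    split_ifs with h1
    · refine diagonal_apply_ne _ fun h2 => h (funext fun y => ?_)
      by_cases hy : y = x
      · rw [hy, h2]
      · exact h1 y hy
    · rfl

theorem atSite_cm (x y : Site N) (A B : Matrix (Fin (n + 1)) (Fin (n + 1)) ℂ) :
    cm (atSite x A) (atSite y B) = if x = y then atSite y (cm A B) else 0 := by
  split_ifs with h
  · rw [h, cm, cm, atSite_mul, atSite_mul, atSite_sub]
  · exact atSite_cm_ne h A B

theorem atSite_cm_self (x y : Site N) (A : Matrix (Fin (n + 1)) (Fin (n + 1)) ℂ) :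
    cm (atSite x A) (atSite y A) = 0 := by
  by_cases h : x = y
  · rw [h, cm, sub_self]
  · exact atSite_cm_ne h A A

/-- Raising operator at a site. -/
def PP (n N : ℕ) (x : Site N) : Matrix (Conf n N) (Conf n N) ℂ := atSite x (sPlus n)

/-- Third component at a site. -/
def ZZ (n N : ℕ) (x : Site N) : Matrix (Conf n N) (Conf n N) ℂ := atSite x (spin n 2)

theorem ZZ_eq (x : Site N) :
    ZZ n N x = diagonal fun σ : Conf n N => (((n : ℝ) / 2 - ((σ x : ℕ) : ℝ) : ℝ) : ℂ) := by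
  rw [ZZ, spin_two, atSite_diag]

theorem spinAlg (n N : ℕ) : SpinAlg (PP n N) (ZZ n N) where
  hZ x := by
    rw [ZZ_eq, diagonal_conjTranspose]
    congr 1
    funext σ
    exact Complex.conj_ofReal _
  PQ x y := by rw [PP, PP, atSite_star, atSite_cm, sp_cm_PQ, atSite_smul, ZZ]
  PZ x y := by rw [PP, ZZ, atSite_cm, sp_cm_PZ, atSite_neg, PP]
  PP x y := atSite_cm_self x y _
  ZZ x y := atSite_cm_self x y _

theorem ham_eq (n N : ℕ) : ham n N = hg Adj (PP n N) (ZZ n N) := by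
  rw [ham, hg]
  refine congrArg (fun M => -((1 / 2 : ℂ) • M)) (Finset.sum_congr rfl fun x _ =>
    Finset.sum_congr rfl fun y _ => if_congr Iff.rfl ?_ rfl)
  rw [Fin.sum_univ_three]
  change atSite x ((1 / 2 : ℂ) • (sPlus n + (sPlus n)ᴴ)) *
      atSite y ((1 / 2 : ℂ) • (sPlus n + (sPlus n)ᴴ)) +
    atSite x ((1 / (2 * Complex.I) : ℂ) • (sPlus n - (sPlus n)ᴴ)) *
      atSite y ((1 / (2 * Complex.I) : ℂ) • (sPlus n - (sPlus n)ᴴ)) + ZZ n N x * ZZ n N y = _
  have hI : (1 / (2 * Complex.I) : ℂ) * (1 / (2 * Complex.I)) = -(1 / 4) := by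
    rw [div_mul_div_comm, mul_mul_mul_comm, Complex.I_mul_I]
    norm_num
  simp only [atSite_smul, atSite_add, atSite_sub, ← atSite_star, ed, PP, smul_mul_smul_comm, hI,
    mul_add, add_mul, mul_sub, sub_mul]
  module

theorem mag_eq (n N : ℕ) : mag n N = ∑ x, ZZ n N x := rfl

theorem mag_diag (n N : ℕ) : mag n N =
    diagonal fun σ : Conf n N => ((∑ x, ((n : ℝ) / 2 - ((σ x : ℕ) : ℝ)) : ℝ) : ℂ) := by
  rw [mag_eq]
  ext σ τ
  rw [Matrix.sum_apply]
  by_cases h : σ = τ
  · subst h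
    simp only [ZZ_eq, diagonal_apply_eq, Complex.ofReal_sum]
  · simp only [ZZ_eq, diagonal_apply_ne _ h, Finset.sum_const_zero]

theorem gs_diag_le {ι : Type} [Fintype ι] [DecidableEq ι] {K : Matrix ι ι ℂ} (hK : K.IsHermitian)
    {d e : ι → ℝ} (h : ∀ i, d i ≤ e i) :
    gs K (diagonal fun i => (d i : ℂ)) ≤ gs K (diagonal fun i => (e i : ℂ)) := by
  have h1 := gs_diag hK (d := fun i => e i - d i) fun i => sub_nonneg.2 (h i)
  simp only [Complex.ofReal_sub, ← diagonal_sub, gs_sub] at h1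
  linarith

theorem gs_diag_const {ι : Type} [Fintype ι] [DecidableEq ι] (K : Matrix ι ι ℂ) (c : ℝ) :
    gs K (diagonal fun _ => (c : ℂ)) = c * gs K 1 := by
  rw [← gs_smul, smul_one_eq_diagonal]

theorem fin_le (j : Fin (n + 1)) : (0 : ℝ) ≤ (j : ℕ) ∧ ((j : ℕ) : ℝ) ≤ n :=
  ⟨Nat.cast_nonneg _, by exact_mod_cast Nat.lt_succ_iff.1 j.2⟩

variable {K : Matrix (Conf n N) (Conf n N) ℂ}

theorem gs_ZZ_le (hK : K.IsHermitian) (x y : Site N) :
    gs K (ZZ n N x * ZZ n N y) ≤ ((n : ℝ) / 2) ^ 2 * gs K 1 := by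
  rw [ZZ_eq, ZZ_eq, diagonal_mul_diagonal, ← gs_diag_const]
  simp only [← Complex.ofReal_mul]
  refine gs_diag_le hK fun σ => ?_
  obtain ⟨a1, a2⟩ := fin_le (σ x)
  obtain ⟨b1, b2⟩ := fin_le (σ y)
  nlinarith [mul_nonneg a1 (sub_nonneg.2 b2), mul_nonneg b1 (sub_nonneg.2 a2)]

theorem gs_Z_le (hK : K.IsHermitian) (x : Site N) : gs K (ZZ n N x) ≤ (n : ℝ) / 2 * gs K 1 := by
  rw [ZZ_eq, ← gs_diag_const]
  exact gs_diag_le hK fun σ => sub_le_self _ (Nat.cast_nonneg _)

theorem gs_QP_le (hK : K.IsHermitian) (x : Site N) : gs K ((PP n N x)ᴴ * PP n N x) ≤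
    2 * ((n : ℝ) / 2) * ((n : ℝ) / 2 * gs K 1 - gs K (ZZ n N x)) := by
  rw [PP, atSite_star, atSite_mul, sp_QP, atSite_diag, ZZ_eq, ← gs_diag_const, ← gs_sub,
    ← gs_smul, diagonal_sub, ← diagonal_smul]
  simp only [← Complex.ofReal_sub, Pi.smul_def, smul_eq_mul, ← Complex.ofReal_mul]
  refine gs_diag_le hK fun σ => ?_
  rcases Nat.eq_zero_or_pos (σ x : ℕ) with h | h
  · rw [h]
    simp
  · have h1 : (1 : ℝ) ≤ (σ x : ℕ) := by exact_mod_cast h
    nlinarith

end Vale.Agent.P361
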