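import Mathlib

/-! Gibbs weights of a Hermitian matrix and the energy-entropy balance inequality. -/

noncomputable section

open Matrix

namespace Vale.Agent.P361

variable {ι : Type} [Fintype ι] [DecidableEq ι]

/-- Unnormalized Gibbs expectation. -/
def gs (K X : Matrix ι ι ℂ) : ℝ := (Matrix.trace (NormedSpace.exp (-K) * X)).re

theorem gs_add (K X Y : Matrix ι ι ℂ) : gs K (X + Y) = gs K X + gs K Y := by
  simp only [gs, mul_add, trace_add, Complex.add_re]

theorem gs_sub (K X Y : Matrix ι ι ℂ) : gs K (X - Y) = gs K X - gs K Y := by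
  simp only [gs, mul_sub, trace_sub, Complex.sub_re]

theorem gs_zero (K : Matrix ι ι ℂ) : gs K 0 = 0 := by
  simp only [gs, mul_zero, trace_zero, Complex.zero_re]

theorem gs_smul (K X : Matrix ι ι ℂ) (c : ℝ) : gs K ((c : ℂ) • X) = c * gs K X := by
  simp only [gs, mul_smul_comm, trace_smul, smul_eq_mul, Complex.re_ofReal_mul]

theorem gs_sum {α : Type} (K : Matrix ι ι ℂ) (s : Finset α) (X : α → Matrix ι ι ℂ) :
    gs K (∑ a ∈ s, X a) = ∑ a ∈ s, gs K (X a) := by
  simp only [gs, Finset.mul_sum, trace_sum, Complex.re_sum]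

theorem exists_eig {K : Matrix ι ι ℂ} (hK : K.IsHermitian) :
    ∃ (U : Matrix ι ι ℂ) (E : ι → ℝ), U * Uᴴ = 1 ∧ Uᴴ * U = 1 ∧
      K = U * diagonal (fun i => (E i : ℂ)) * Uᴴ ∧
      ∀ X, gs K X = ∑ i, Real.exp (-E i) * ((Uᴴ * X * U) i i).re := by
  have h1 : (hK.eigenvectorUnitary : Matrix ι ι ℂ) * (hK.eigenvectorUnitary : Matrix ι ι ℂ)ᴴ = 1 :=
    hK.eigenvectorUnitary.2.2
  have h2 : (hK.eigenvectorUnitary : Matrix ι ι ℂ)ᴴ * (hK.eigenvectorUnitary : Matrix ι ι ℂ) = 1 :=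
    hK.eigenvectorUnitary.2.1
  have h3 : K = (hK.eigenvectorUnitary : Matrix ι ι ℂ) *
      diagonal (fun i => (hK.eigenvalues i : ℂ)) * (hK.eigenvectorUnitary : Matrix ι ι ℂ)ᴴ :=
    hK.spectral_theorem
  generalize (hK.eigenvectorUnitary : Matrix ι ι ℂ) = U at h1 h2 h3
  generalize hK.eigenvalues = E at h3
  refine ⟨U, E, h1, h2, h3, fun X => ?_⟩
  have h4 : U⁻¹ = Uᴴ := Matrix.inv_eq_right_inv h1
  have h5 : IsUnit U := ⟨⟨U, Uᴴ, h1, h2⟩, rfl⟩
  have h6 : -K = U * diagonal (fun i => ((-E i : ℝ) : ℂ)) * U⁻¹ := by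
    rw [h3, h4, ← neg_mul, ← mul_neg, diagonal_neg]
    simp only [Complex.ofReal_neg]
  have h7 : NormedSpace.exp (-K) = U * diagonal (fun i => ((Real.exp (-E i) : ℝ) : ℂ)) * Uᴴ := by
    rw [h6, Matrix.exp_conj _ _ h5, Matrix.exp_diagonal, h4]
    congr 3
    funext i
    rw [Pi.exp_def, ← Complex.exp_eq_exp_ℂ, Complex.ofReal_exp]
  rw [gs, h7, mul_assoc, mul_assoc, trace_mul_comm, mul_assoc, trace, Complex.re_sum]
  refine Finset.sum_congr rfl fun i _ => ?_
  rw [diag_apply, diagonal_mul, Complex.re_ofReal_mul]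

theorem re_star_mul (B : Matrix ι ι ℂ) (j : ι) :
    ((Bᴴ * B) j j).re = ∑ i, Complex.normSq (B i j) := by
  rw [mul_apply, Complex.re_sum]
  refine Finset.sum_congr rfl fun i _ => ?_
  rw [conjTranspose_apply, Complex.star_def, ← Complex.normSq_eq_conj_mul_self, Complex.ofReal_re]

theorem gs_star_mul {K : Matrix ι ι ℂ} (hK : K.IsHermitian) (X : Matrix ι ι ℂ) :
    0 ≤ gs K (Xᴴ * X) := by
  obtain ⟨U, E, -, -, -, h⟩ := exists_eig hK
  rw [h]
  refine Finset.sum_nonneg fun i _ => mul_nonneg (Real.exp_nonneg _) ?_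
  have e : Uᴴ * (Xᴴ * X) * U = (X * U)ᴴ * (X * U) := by
    rw [conjTranspose_mul]
    simp only [mul_assoc]
  rw [e, re_star_mul]
  exact Finset.sum_nonneg fun _ _ => Complex.normSq_nonneg _

theorem gs_diag {K : Matrix ι ι ℂ} (hK : K.IsHermitian) {d : ι → ℝ} (hd : ∀ i, 0 ≤ d i) :
    0 ≤ gs K (diagonal fun i => (d i : ℂ)) := by
  have e : (diagonal fun i => (d i : ℂ)) = (diagonal fun i => (Real.sqrt (d i) : ℂ))ᴴ *
      diagonal fun i => (Real.sqrt (d i) : ℂ) := by
    rw [diagonal_conjTranspose, diagonal_mul_diagonal]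
    congr 1
    funext i
    rw [Pi.star_apply, Complex.star_def, Complex.conj_ofReal, ← Complex.ofReal_mul,
      Real.mul_self_sqrt (hd i)]
  rw [e]
  exact gs_star_mul hK _

theorem gs_one_pos [Nonempty ι] {K : Matrix ι ι ℂ} (hK : K.IsHermitian) : 0 < gs K 1 := by
  obtain ⟨U, E, -, h2, -, h⟩ := exists_eig hK
  rw [h, mul_one, h2]
  refine Finset.sum_pos (fun i _ => ?_) Finset.univ_nonempty
  rw [one_apply_eq, Complex.one_re, mul_one]
  exact Real.exp_pos _

theorem eeb_scalar (a b w : ℝ) :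
    (w + 1 - Real.exp (-w)) * (Real.exp (-b) - Real.exp (-a)) -
      (Real.exp w + Real.exp (-w) - 2) * Real.exp (-a) ≤
      (a - b) * (Real.exp (-b) - Real.exp (-a)) := by
  have h1 : Real.exp w * Real.exp (-a) = Real.exp (-b) * Real.exp (w - (a - b)) := by
    rw [← Real.exp_add, ← Real.exp_add]
    congr 1
    ring
  have h2 : Real.exp (-w) * Real.exp (-b) = Real.exp (-a) * Real.exp ((a - b) - w) := by
    rw [← Real.exp_add, ← Real.exp_add]
    congr 1
    ring
  have h3 := mul_le_mul_of_nonneg_left (Real.add_one_le_exp (w - (a - b))) (Real.exp_nonneg (-b))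
  have h4 := mul_le_mul_of_nonneg_left (Real.add_one_le_exp ((a - b) - w)) (Real.exp_nonneg (-a))
  nlinarith

/-- Commutator. -/
def cm (A B : Matrix ι ι ℂ) : Matrix ι ι ℂ := A * B - B * A

/-- Energy-entropy balance in linear form. -/
theorem eeb {K : Matrix ι ι ℂ} (hK : K.IsHermitian) (A : Matrix ι ι ℂ) (w : ℝ) :
    (w + 1 - Real.exp (-w)) * gs K (cm Aᴴ A) -
      (Real.exp w + Real.exp (-w) - 2) * gs K (A * Aᴴ) ≤ gs K (cm Aᴴ (cm K A)) := by
  obtain ⟨U, E, h1, h2, h3, h⟩ := exists_eig hK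
  obtain ⟨B, hB⟩ : ∃ B, B = Uᴴ * A * U := ⟨_, rfl⟩
  have hB' : Bᴴ = Uᴴ * Aᴴ * U := by
    rw [hB, conjTranspose_mul, conjTranspose_mul, conjTranspose_conjTranspose, mul_assoc]
  have hm : ∀ X Y : Matrix ι ι ℂ, Uᴴ * (X * Y) * U = (Uᴴ * X * U) * (Uᴴ * Y * U) := fun X Y => by
    simp only [mul_assoc]
    rw [← mul_assoc U Uᴴ, h1, one_mul]
  have hc : ∀ X Y : Matrix ι ι ℂ, Uᴴ * cm X Y * U = cm (Uᴴ * X * U) (Uᴴ * Y * U) := fun X Y => by
    rw [cm, cm, mul_sub, sub_mul, hm, hm]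
  have hD : Uᴴ * K * U = diagonal fun i => (E i : ℂ) := by
    rw [h3]
    simp only [mul_assoc]
    rw [h2, mul_one, ← mul_assoc, h2, one_mul]
  have e1 : ∀ j, ((Bᴴ * B) j j).re = ∑ i, Complex.normSq (B i j) := re_star_mul B
  have e2 : ∀ i, ((B * Bᴴ) i i).re = ∑ j, Complex.normSq (B i j) := fun i => by
    have e := re_star_mul Bᴴ i
    rw [conjTranspose_conjTranspose] at e
    rw [e]
    exact Finset.sum_congr rfl fun j _ => by
      rw [conjTranspose_apply, Complex.star_def, Complex.normSq_conj]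
  have e0 : ∀ i j, cm (diagonal fun i => (E i : ℂ)) B i j = ((E i - E j : ℝ) : ℂ) * B i j :=
    fun i j => by
      rw [cm, Matrix.sub_apply, diagonal_mul, mul_diagonal]
      push_cast
      ring
  have e3 : ∀ j, ((Bᴴ * cm (diagonal fun i => (E i : ℂ)) B) j j).re =
      ∑ i, (E i - E j) * Complex.normSq (B i j) := fun j => by
    rw [mul_apply, Complex.re_sum]
    refine Finset.sum_congr rfl fun i _ => ?_
    rw [e0, conjTranspose_apply, Complex.star_def, mul_left_comm,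
      ← Complex.normSq_eq_conj_mul_self, ← Complex.ofReal_mul, Complex.ofReal_re]
  have e4 : ∀ i, ((cm (diagonal fun i => (E i : ℂ)) B * Bᴴ) i i).re =
      ∑ j, (E i - E j) * Complex.normSq (B i j) := fun i => by
    rw [mul_apply, Complex.re_sum]
    refine Finset.sum_congr rfl fun j _ => ?_
    rw [e0, conjTranspose_apply, Complex.star_def, mul_assoc, Complex.mul_conj,
      ← Complex.ofReal_mul, Complex.ofReal_re]
  have f1 : gs K (cm Aᴴ A) =
      ∑ i, ∑ j, (Real.exp (-E j) - Real.exp (-E i)) * Complex.normSq (B i j) := by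
    rw [h, hc, ← hB, ← hB']
    simp only [cm, Matrix.sub_apply, Complex.sub_re, e1, e2, mul_sub, sub_mul, Finset.sum_sub_distrib,
      Finset.mul_sum]
    rw [Finset.sum_comm]
  have f2 : gs K (A * Aᴴ) = ∑ i, ∑ j, Real.exp (-E i) * Complex.normSq (B i j) := by
    rw [h, hm, ← hB, ← hB']
    simp only [e2, Finset.mul_sum]
  have f3 : gs K (cm Aᴴ (cm K A)) =
      ∑ i, ∑ j, (E i - E j) * (Real.exp (-E j) - Real.exp (-E i)) * Complex.normSq (B i j) := by
    rw [h, hc, hc, ← hB, ← hB', hD, cm]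
    simp only [Matrix.sub_apply, Complex.sub_re, e3, e4, mul_sub _ (∑ _, _), Finset.sum_sub_distrib,
      Finset.mul_sum]
    rw [Finset.sum_comm, ← Finset.sum_sub_distrib]
    refine Finset.sum_congr rfl fun i _ => ?_
    rw [← Finset.sum_sub_distrib]
    exact Finset.sum_congr rfl fun j _ => by ring
  rw [f1, f2, f3, Finset.mul_sum, Finset.mul_sum, ← Finset.sum_sub_distrib]
  refine Finset.sum_le_sum fun i _ => ?_
  rw [Finset.mul_sum, Finset.mul_sum, ← Finset.sum_sub_distrib]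
  refine Finset.sum_le_sum fun j _ => ?_
  rw [← mul_assoc, ← mul_assoc, ← sub_mul]
  exact mul_le_mul_of_nonneg_right (eeb_scalar (E i) (E j) w) (Complex.normSq_nonneg _)

/-- Jensen's inequality for a commuting diagonal perturbation. -/
theorem jensen [Nonempty ι] {K : Matrix ι ι ℂ} (hK : K.IsHermitian) (d : ι → ℝ)
    (hc : cm K (diagonal fun i => (d i : ℂ)) = 0) :
    Real.log (gs K 1) - gs K (diagonal fun i => (d i : ℂ)) / gs K 1 ≤
      Real.log (gs (K + diagonal fun i => (d i : ℂ)) 1) := by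
  have hZ := gs_one_pos hK
  obtain ⟨c, hc'⟩ : ∃ c, c = gs K (diagonal fun i => (d i : ℂ)) / gs K 1 := ⟨_, rfl⟩
  have h1 : gs (K + diagonal fun i => (d i : ℂ)) 1 =
      gs K (diagonal fun i => (Real.exp (-d i) : ℂ)) := by
    have h2 : Commute (-K) (-diagonal fun i => (d i : ℂ)) :=
      Commute.neg_left (Commute.neg_right (sub_eq_zero.1 hc))
    rw [gs, gs, mul_one, neg_add, Matrix.exp_add_of_commute _ _ h2, diagonal_neg,
      Matrix.exp_diagonal]
    congr 4
    funext i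
    rw [Pi.exp_def, ← Complex.exp_eq_exp_ℂ, Complex.ofReal_exp, Complex.ofReal_neg]
  have h3 := gs_diag hK (d := fun i => Real.exp (-d i) - Real.exp (-c) * (1 + c - d i)) fun i => by
    have h4 := mul_le_mul_of_nonneg_left (Real.add_one_le_exp (c - d i)) (Real.exp_nonneg (-c))
    rw [← Real.exp_add, show -c + (c - d i) = -d i by ring] at h4
    linarith
  have h5 : (diagonal fun i => ((Real.exp (-d i) - Real.exp (-c) * (1 + c - d i) : ℝ) : ℂ)) =
      (diagonal fun i => (Real.exp (-d i) : ℂ)) - (((Real.exp (-c) * (1 + c) : ℝ) : ℂ) • 1 -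
        ((Real.exp (-c) : ℝ) : ℂ) • diagonal fun i => (d i : ℂ)) := by
    ext i j
    by_cases hij : i = j
    · subst hij
      simp only [diagonal_apply_eq, Matrix.sub_apply, Matrix.smul_apply, one_apply_eq, smul_eq_mul]
      push_cast
      ring
    · simp only [diagonal_apply_ne _ hij, Matrix.sub_apply, Matrix.smul_apply, one_apply_ne hij, smul_zero,
        sub_zero]
  rw [h5, gs_sub, gs_sub, gs_smul, gs_smul, ← h1] at h3
  have h6 : gs K (diagonal fun i => (d i : ℂ)) = c * gs K 1 := by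
    rw [hc', div_mul_cancel₀ _ hZ.ne']
  rw [← hc', Real.le_log_iff_exp_le (by rw [h6] at h3; nlinarith [mul_pos (Real.exp_pos (-c)) hZ]),
    sub_eq_add_neg, Real.exp_add, Real.exp_log hZ]
  rw [h6] at h3
  nlinarith

end Vale.Agent.P361
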