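import Vale.Agent.P361.Spin

/-! Plane waves on the cube and the finite volume inequality. -/

noncomputable section

open Matrix

namespace Vale.Agent.P361

variable {n N : ℕ}

/-- Momenta. -/
def mom (N : ℕ) (q : Fin (2 * N + 1)) : ℝ := 2 * Real.pi * (((q : ℕ) : ℝ) - N) / (2 * N + 1)

/-- Plane waves. -/
def wv (k x : Site N) : ℂ := Complex.exp (Complex.I * (∑ j, mom N (k j) * ((x j : ℕ) : ℝ) : ℝ))

theorem wv_normSq (k x : Site N) : Complex.normSq (wv k x) = 1 := by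
  rw [Complex.normSq_eq_norm_sq, wv, Complex.norm_exp_I_mul_ofReal, one_pow]

theorem orth_one (a b : Fin (2 * N + 1)) :
    ∑ q, Complex.exp (Complex.I * (mom N q * (((a : ℕ) : ℝ) - ((b : ℕ) : ℝ)) : ℝ)) =
      if a = b then (2 * N + 1 : ℂ) else 0 := by
  split_ifs with h
  · simp [h]
  have hL : (2 * N + 1 : ℂ) ≠ 0 := by exact_mod_cast Nat.succ_ne_zero (2 * N)
  obtain ⟨z, hz⟩ : ∃ z : ℂ, z = (((a : ℕ) : ℂ) - ((b : ℕ) : ℂ)) / (2 * N + 1) *
      (2 * Real.pi * Complex.I) := ⟨_, rfl⟩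
  have e : ∀ q : Fin (2 * N + 1),
      Complex.exp (Complex.I * (mom N q * (((a : ℕ) : ℝ) - ((b : ℕ) : ℝ)) : ℝ)) =
        Complex.exp z ^ (q : ℕ) * Complex.exp (-(N * z)) := fun q => by
    rw [← Complex.exp_nat_mul, ← Complex.exp_add, hz, mom]
    congr 1
    push_cast
    ring
  have h1 : Complex.exp z ≠ 1 := fun h1 => by
    obtain ⟨m, hm⟩ := Complex.exp_eq_one_iff.1 h1
    rw [hz] at hm
    have h2 := mul_right_cancel₀ Complex.two_pi_I_ne_zero hm
    rw [div_eq_iff hL] at h2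
    have h3 : ((a : ℕ) : ℤ) - ((b : ℕ) : ℤ) = m * (2 * N + 1) := by exact_mod_cast h2
    have h4 := a.2
    have h5 := b.2
    have h6 : (a : ℕ) ≠ b := fun h' => h (Fin.ext h')
    rcases lt_trichotomy m 0 with h7 | h7 | h7
    · nlinarith
    · rw [h7, zero_mul] at h3
      omega
    · nlinarith
  have h2 : Complex.exp z ^ (2 * N + 1) = 1 := by
    rw [← Complex.exp_nat_mul, Complex.exp_eq_one_iff]
    refine ⟨((a : ℕ) : ℤ) - ((b : ℕ) : ℤ), ?_⟩
    rw [hz]
    push_cast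
    field_simp
  simp only [e, ← Finset.sum_mul]
  rw [Fin.sum_univ_eq_sum_range (fun q => Complex.exp z ^ q), geom_sum_eq h1, h2, sub_self,
    zero_div, zero_mul]

theorem wv_mul_star (k x y : Site N) : wv k x * star (wv k y) =
    ∏ j, Complex.exp (Complex.I * (mom N (k j) * (((x j : ℕ) : ℝ) - ((y j : ℕ) : ℝ)) : ℝ)) := by
  rw [wv, wv, Complex.star_def, ← Complex.exp_conj, map_mul, Complex.conj_I, Complex.conj_ofReal,
    ← Complex.exp_add, ← Complex.exp_sum]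
  congr 1
  simp only [Fin.sum_univ_three]
  push_cast
  ring

theorem orth (x y : Site N) : ∑ k, wv k x * star (wv k y) =
    if x = y then (((2 * (N : ℝ) + 1) ^ 3 : ℝ) : ℂ) else 0 := by
  simp only [wv_mul_star]
  rw [← Fintype.piFinset_univ, ← Finset.prod_univ_sum (fun _ => Finset.univ) fun j q =>
    Complex.exp (Complex.I * (mom N q * (((x j : ℕ) : ℝ) - ((y j : ℕ) : ℝ)) : ℝ))]
  simp only [orth_one]
  split_ifs with h
  · simp [h]
  · obtain ⟨j, hj⟩ := Function.ne_iff.1 h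
    exact Finset.prod_eq_zero (Finset.mem_univ j) (if_neg hj)

theorem sum_sw {ι Λ κ : Type} [Fintype ι] [Fintype Λ] [DecidableEq Λ] [Fintype κ]
    (P : Λ → Matrix ι ι ℂ) (φ : κ → Λ → ℂ) (V : ℂ)
    (h : ∀ x y, ∑ k, φ k x * star (φ k y) = if x = y then V else 0) :
    ∑ k, sw P (φ k) * (sw P (φ k))ᴴ = V • ∑ x, (P x)ᴴ * P x := by
  simp only [sw_star]
  simp only [sw, Finset.sum_mul_sum, smul_mul_smul_comm]
  rw [Finset.sum_comm, Finset.smul_sum]
  refine Finset.sum_congr rfl fun x _ => ?_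
  rw [Finset.sum_comm]
  simp only [← Finset.sum_smul, h, ite_smul, zero_smul, Finset.sum_ite_eq, Finset.mem_univ, if_true]

theorem adj_symm (x y : Site N) : Adj x y ↔ Adj y x := by
  simp only [Adj, abs_sub_comm]

theorem adj_ne (x y : Site N) (h : Adj x y) : x ≠ y := by
  rintro rfl
  simp [Adj] at h

theorem unit_vec {d : Fin 3 → ℤ} (h : ∑ j, |d j| = 1) :
    ∃ j, d = Pi.single j 1 ∨ d = Pi.single j (-1) := by
  rw [Fin.sum_univ_three] at h
  have key : (d 1 = 0 ∧ d 2 = 0 ∧ (d 0 = 1 ∨ d 0 = -1)) ∨ (d 0 = 0 ∧ d 2 = 0 ∧ (d 1 = 1 ∨ d 1 = -1)) ∨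
      (d 0 = 0 ∧ d 1 = 0 ∧ (d 2 = 1 ∨ d 2 = -1)) := by
    rcases abs_cases (d 0) with h0 | h0 <;> rcases abs_cases (d 1) with h1 | h1 <;>
      rcases abs_cases (d 2) with h2 | h2 <;> omega
  rcases key with ⟨h1, h2, h3 | h3⟩ | ⟨h1, h2, h3 | h3⟩ | ⟨h1, h2, h3 | h3⟩
  · exact ⟨0, Or.inl (funext fun j => by fin_cases j <;> simp [h1, h2, h3])⟩
  · exact ⟨0, Or.inr (funext fun j => by fin_cases j <;> simp [h1, h2, h3])⟩
  · exact ⟨1, Or.inl (funext fun j => by fin_cases j <;> simp [h1, h2, h3])⟩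
  · exact ⟨1, Or.inr (funext fun j => by fin_cases j <;> simp [h1, h2, h3])⟩
  · exact ⟨2, Or.inl (funext fun j => by fin_cases j <;> simp [h1, h2, h3])⟩
  · exact ⟨2, Or.inr (funext fun j => by fin_cases j <;> simp [h1, h2, h3])⟩

theorem exp_lip (a b : ℝ) :
    Complex.normSq (Complex.exp (Complex.I * a) - Complex.exp (Complex.I * b)) ≤ (a - b) ^ 2 := by
  have e : Complex.exp (Complex.I * a) - Complex.exp (Complex.I * b) =
      Complex.exp (Complex.I * b) * (Complex.exp (Complex.I * (a - b : ℝ)) - 1) := by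
    rw [mul_sub, ← Complex.exp_add, mul_one]
    congr 2
    push_cast
    ring
  rw [Complex.normSq_eq_norm_sq, e, norm_mul, Complex.norm_exp_I_mul_ofReal, one_mul, ← sq_abs (a - b)]
  exact pow_le_pow_left₀ (norm_nonneg _) Real.norm_exp_I_mul_ofReal_sub_one_le 2

theorem nbr_le (k x : Site N) :
    ∑ y, (if Adj x y then Complex.normSq (wv k x - wv k y) else 0) ≤ 2 * ∑ j, mom N (k j) ^ 2 := by
  let g : Site N → Fin 3 → ℤ := fun y j => ((x j : ℕ) : ℤ) - ((y j : ℕ) : ℤ)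
  let f : (Fin 3 → ℤ) → ℝ := fun d => (∑ j, mom N (k j) * (d j : ℝ)) ^ 2
  have hg : Function.Injective g := fun y y' h => funext fun j => Fin.ext (by
    have h1 : ((x j : ℕ) : ℤ) - ((y j : ℕ) : ℤ) = ((x j : ℕ) : ℤ) - ((y' j : ℕ) : ℤ) := congrFun h j
    omega)
  have h1 : ∀ y, Complex.normSq (wv k x - wv k y) ≤ f (g y) := fun y => by
    refine (exp_lip _ _).trans (le_of_eq ?_)
    simp only [f, g, ← Finset.sum_sub_distrib, ← mul_sub]
    push_cast
    rfl
  have h2 : ∀ j (s : ℤ), s ^ 2 = 1 → f (Pi.single j s) = mom N (k j) ^ 2 := fun j s hs => by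
    have h3 : (s : ℝ) ^ 2 = 1 := by exact_mod_cast hs
    simp only [f]
    rw [Finset.sum_eq_single j, Pi.single_eq_same, mul_pow, h3, mul_one]
    · intro i _ hi
      rw [Pi.single_eq_of_ne hi, Int.cast_zero, mul_zero]
    · exact fun h => absurd (Finset.mem_univ _) h
  rw [← Finset.sum_filter]
  refine (Finset.sum_le_sum fun y _ => h1 y).trans ?_
  rw [← Finset.sum_image (f := f) (g := g) hg.injOn]
  refine (Finset.sum_le_sum_of_subset_of_nonneg
    (t := (Finset.univ ×ˢ ({1, -1} : Finset ℤ)).image fun p : Fin 3 × ℤ => Pi.single p.1 p.2)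
    (fun d hd => ?_) fun _ _ _ => sq_nonneg _).trans
      ((Finset.sum_image_le_of_nonneg fun _ _ => sq_nonneg _).trans (le_of_eq ?_))
  · obtain ⟨y, hy, rfl⟩ := Finset.mem_image.1 hd
    obtain ⟨j, h | h⟩ := unit_vec (d := g y) (Finset.mem_filter.1 hy).2
    · exact Finset.mem_image.2 ⟨(j, 1), by simp, h.symm⟩
    · exact Finset.mem_image.2 ⟨(j, -1), by simp, h.symm⟩
  · rw [Finset.sum_product, Finset.mul_sum]
    refine Finset.sum_congr rfl fun j _ => ?_
    rw [Finset.sum_pair (by norm_num), two_mul]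
    exact congrArg₂ _ (h2 j 1 (by norm_num)) (h2 j (-1) (by norm_num))

theorem geo_le (w : ℝ) (J : ℕ) :
    (Real.exp w - 1) * ∑ l ∈ Finset.range J, Real.exp (-(((l : ℝ) + 1) * w)) ≤ 1 := by
  have h : (Real.exp w - 1) * ∑ l ∈ Finset.range J, Real.exp (-(((l : ℝ) + 1) * w)) =
      1 - Real.exp (-(J * w)) := by
    induction J with
    | zero => simp
    | succ J ih =>
      rw [Finset.sum_range_succ, mul_add, ih, sub_mul, ← Real.exp_add]
      push_cast
      rw [show w + -(((J : ℝ) + 1) * w) = -(J * w) by ring]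
      ring
  rw [h]
  exact sub_le_self _ (Real.exp_nonneg _)

/-- The inverse temperature times the Hamiltonian with field. -/
def KK (n N : ℕ) (β t : ℝ) : Matrix (Conf n N) (Conf n N) ℂ :=
  (β : ℂ) • (ham n N - (t : ℂ) • mag n N)

theorem KK_herm (n N : ℕ) (β t : ℝ) : (KK n N β t).IsHermitian := by
  rw [IsHermitian, KK, ham_eq, mag_eq, conjTranspose_smul, conjTranspose_sub, conjTranspose_smul,
    (spinAlg n N).hg_herm adj_symm, (spinAlg n N).M_herm, Complex.star_def, Complex.conj_ofReal,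
    Complex.conj_ofReal]

theorem card_site (N : ℕ) : (Fintype.card (Site N) : ℝ) = (2 * (N : ℝ) + 1) ^ 3 := by
  rw [Fintype.card_fun, Fintype.card_fin, Fintype.card_fin]
  push_cast
  rfl

/-- Lower bound on the occupation of one mode. -/
theorem mode_ge {β t τ : ℝ} (hβ : 0 < β) (ht : 0 < t) (hτ : 0 ≤ τ)
    (hm : 2 * ((2 * (N : ℝ) + 1) ^ 3 * ((n : ℝ) / 2 * gs (KK n N β t) 1)) ≤
      (1 + τ) * gs (KK n N β t) (mag n N)) (J : ℕ) (k : Site N) :
    4 * gs (KK n N β t) (mag n N) * ∑ l ∈ Finset.range J,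
      Real.exp (-(((l : ℝ) + 1) * (β * (τ * ((n : ℝ) / 2) * ∑ j, mom N (k j) ^ 2 + t)))) ≤
      gs (KK n N β t) (sw (PP n N) (wv k) * (sw (PP n N) (wv k))ᴴ) +
        gs (KK n N β t) (sw (PP n N) (star (wv k)) * (sw (PP n N) (star (wv k)))ᴴ) := by
  have hK := KK_herm n N β t
  have hS : (0 : ℝ) ≤ (n : ℝ) / 2 := by positivity
  have h1 := (spinAlg n N).double_le (wv_normSq k) adj_symm adj_ne hβ.le hS
    (K := KK n N β t) (t := t) (by rw [KK, ham_eq, mag_eq]) hK (nbr_le k) (gs_ZZ_le hK)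
    (gs_QP_le hK) (gs_Z_le hK) (gs_one_pos hK).le
  have he : 0 ≤ ∑ j, mom N (k j) ^ 2 := Finset.sum_nonneg fun _ _ => sq_nonneg _
  generalize ∑ j, mom N (k j) ^ 2 = e at h1 he
  obtain ⟨w, hw⟩ : ∃ w, w = β * (τ * ((n : ℝ) / 2) * e + t) := ⟨_, rfl⟩
  have hw0 : 0 < w := by
    rw [hw]
    positivity
  have h2 := eeb hK (sw (PP n N) (wv k)) w
  have h3 := eeb hK (sw (PP n N) (star (wv k))) w
  rw [(spinAlg n N).sw'_sw (wv_normSq k), gs_smul] at h2
  rw [(spinAlg n N).sw'_sw fun x => by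
    rw [Pi.star_apply, Complex.star_def, Complex.normSq_conj, wv_normSq], gs_smul] at h3
  have p1 := gs_star_mul hK (sw (PP n N) (wv k))ᴴ
  have p2 := gs_star_mul hK (sw (PP n N) (star (wv k)))ᴴ
  rw [conjTranspose_conjTranspose] at p1 p2
  rw [card_site, ← mag_eq] at h1
  rw [← mag_eq] at h2 h3
  rw [← hw]
  generalize gs (KK n N β t) (sw (PP n N) (wv k) * (sw (PP n N) (wv k))ᴴ) = v1 at *
  generalize gs (KK n N β t) (sw (PP n N) (star (wv k)) * (sw (PP n N) (star (wv k)))ᴴ) = v2 at *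
  generalize gs (KK n N β t) (mag n N) = M at *
  have h4 : 4 * β * ((n : ℝ) / 2 * e * (2 * ((2 * (N : ℝ) + 1) ^ 3 *
      ((n : ℝ) / 2 * gs (KK n N β t) 1)) - M) + t * M) ≤ 4 * M * w := by
    have h5 := mul_le_mul_of_nonneg_left hm (mul_nonneg hβ.le (mul_nonneg hS he))
    rw [hw]
    linarith
  have h5 : Real.exp w * Real.exp (-w) = 1 := by rw [← Real.exp_add, add_neg_cancel, Real.exp_zero]
  have h6 : 0 < 1 - Real.exp (-w) := sub_pos.2 (Real.exp_lt_one_iff.2 (neg_lt_zero.2 hw0))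
  have h7 : 4 * M ≤ (Real.exp w - 1) * (v1 + v2) := by
    refine le_of_mul_le_mul_left ?_ h6
    have h8 : Real.exp w + Real.exp (-w) - 2 = (1 - Real.exp (-w)) * (Real.exp w - 1) := by
      linear_combination h5
    rw [h8] at h2 h3
    linarith
  have h9 : 0 ≤ ∑ l ∈ Finset.range J, Real.exp (-(((l : ℝ) + 1) * w)) :=
    Finset.sum_nonneg fun _ _ => Real.exp_nonneg _
  have h10 := mul_le_mul_of_nonneg_right h7 h9
  have h11 := mul_le_mul_of_nonneg_right (geo_le w J) (add_nonneg p1 p2)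
  linarith

/-- The magnetization per site. -/
def magN (n N : ℕ) (β t : ℝ) : ℝ :=
  gs (KK n N β t) (mag n N) / gs (KK n N β t) 1 / (2 * (N : ℝ) + 1) ^ 3

/-- Mean of a Gaussian over the momenta. -/
def gav (N : ℕ) (s : ℝ) : ℝ := (∑ q, Real.exp (-(s * mom N q ^ 2))) / (2 * (N : ℝ) + 1)

theorem finite_vol (hn : 0 < n) {β t τ : ℝ} (hβ : 0 < β) (ht : 0 < t) (hτ : 1 ≤ τ)
    (hm : 2 * ((n : ℝ) / 2) ≤ (1 + τ) * magN n N β t) (J : ℕ) :
    ∑ l ∈ Finset.range J, Real.exp (-(((l : ℝ) + 1) * (β * t))) *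
      gav N (((l : ℝ) + 1) * (β * (τ * ((n : ℝ) / 2)))) ^ 3 ≤
      τ * ((n : ℝ) / 2 - magN n N β t) := by
  have hK := KK_herm n N β t
  have hZ := gs_one_pos hK
  have hV : (0 : ℝ) < (2 * (N : ℝ) + 1) ^ 3 := by positivity
  have hS : (0 : ℝ) < (n : ℝ) / 2 := by positivity
  have hM : gs (KK n N β t) (mag n N) =
      magN n N β t * ((2 * (N : ℝ) + 1) ^ 3 * gs (KK n N β t) 1) := by
    rw [magN]
    field_simp
  have h1 := Finset.sum_le_sum fun k (_ : k ∈ Finset.univ) => mode_ge (n := n) (N := N) hβ ht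
    (zero_le_one.trans hτ) (by
      have h2 := mul_le_mul_of_nonneg_right hm (mul_pos hV hZ).le
      rw [hM]
      linarith) J k
  rw [Finset.sum_add_distrib, ← gs_sum, ← gs_sum, sum_sw _ _ _ orth,
    sum_sw (PP n N) (fun k => star (wv k)) (((2 * (N : ℝ) + 1) ^ 3 : ℝ) : ℂ) fun x y => by
      simp only [Pi.star_apply, star_star, mul_comm (star _), orth, eq_comm],
    gs_smul, gs_sum, ← Finset.mul_sum, Finset.sum_comm] at h1
  have h2 := Finset.sum_le_sum fun x (_ : x ∈ Finset.univ) => gs_QP_le hK x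
  rw [← Finset.mul_sum, Finset.sum_sub_distrib, ← gs_sum _ _ (ZZ n N), ← mag_eq, Finset.sum_const,
    Finset.card_univ, nsmul_eq_mul, card_site] at h2
  have h3 : ∀ l : ℕ, ∑ k : Site N,
      Real.exp (-(((l : ℝ) + 1) * (β * (τ * ((n : ℝ) / 2) * ∑ j, mom N (k j) ^ 2 + t)))) =
      (2 * (N : ℝ) + 1) ^ 3 * (Real.exp (-(((l : ℝ) + 1) * (β * t))) *
        gav N (((l : ℝ) + 1) * (β * (τ * ((n : ℝ) / 2)))) ^ 3) := fun l => by
    have h4 : (∑ q, Real.exp (-(((l : ℝ) + 1) * (β * (τ * ((n : ℝ) / 2))) * mom N q ^ 2))) ^ 3 =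
        ∑ k : Site N, ∏ j,
          Real.exp (-(((l : ℝ) + 1) * (β * (τ * ((n : ℝ) / 2))) * mom N (k j) ^ 2)) := by
      rw [← Fintype.piFinset_univ, ← Finset.prod_univ_sum (fun _ : Fin 3 => Finset.univ) fun _ q =>
        Real.exp (-(((l : ℝ) + 1) * (β * (τ * ((n : ℝ) / 2))) * mom N q ^ 2)), Finset.prod_const,
        Finset.card_univ, Fintype.card_fin]
    rw [gav, div_pow, h4, mul_left_comm, mul_div_cancel₀ _ hV.ne', Finset.mul_sum]
    refine Finset.sum_congr rfl fun k _ => ?_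
    rw [← Real.exp_sum, ← Real.exp_add]
    congr 1
    simp only [Fin.sum_univ_three]
    ring
  simp only [h3, ← Finset.mul_sum] at h1
  have h5 : 0 ≤ ∑ l ∈ Finset.range J, Real.exp (-(((l : ℝ) + 1) * (β * t))) *
      gav N (((l : ℝ) + 1) * (β * (τ * ((n : ℝ) / 2)))) ^ 3 :=
    Finset.sum_nonneg fun _ _ => mul_nonneg (Real.exp_nonneg _) (pow_nonneg (div_nonneg
      (Finset.sum_nonneg fun _ _ => Real.exp_nonneg _) (by positivity)) 3)
  generalize ∑ l ∈ Finset.range J, Real.exp (-(((l : ℝ) + 1) * (β * t))) *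
      gav N (((l : ℝ) + 1) * (β * (τ * ((n : ℝ) / 2)))) ^ 3 = G at h1 h5 ⊢
  rw [hM] at h1 h2
  generalize magN n N β t = m at *
  generalize (2 * (N : ℝ) + 1) ^ 3 = V at *
  generalize gs (KK n N β t) 1 = Z at *
  generalize (n : ℝ) / 2 = S at *
  have h6 : m * G ≤ S * (S - m) := by
    refine le_of_mul_le_mul_left ?_ (mul_pos hV (mul_pos hV hZ))
    have h7 := mul_le_mul_of_nonneg_left h2 hV.le
    linarith
  have hm0 : 0 ≤ m := by
    by_contra h
    have := mul_neg_of_pos_of_neg (show 0 < 1 + τ by linarith) (not_le.1 h)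
    linarith
  have h8 : S ≤ τ * m := by nlinarith
  refine le_of_mul_le_mul_left ?_ hS
  have h9 := mul_le_mul_of_nonneg_right h8 h5
  have h10 := mul_le_mul_of_nonneg_left h6 (zero_le_one.trans hτ)
  linarith

theorem press_le {β t : ℝ} (hβ : 0 < β) :
    pressN n N β t - pressN n N β 0 ≤ t * magN n N β t := by
  have hK := KK_herm n N β t
  have hV : (0 : ℝ) < (2 * (N : ℝ) + 1) ^ 3 := by positivity
  have e : (diagonal fun σ : Conf n N =>
      ((β * t * ∑ x, ((n : ℝ) / 2 - ((σ x : ℕ) : ℝ)) : ℝ) : ℂ)) = ((β * t : ℝ) : ℂ) • mag n N := by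
    rw [mag_diag, ← diagonal_smul]
    congr 1
    funext σ
    rw [Pi.smul_apply, smul_eq_mul, Complex.ofReal_mul]
  have h1 := jensen hK (fun σ : Conf n N => β * t * ∑ x, ((n : ℝ) / 2 - ((σ x : ℕ) : ℝ))) (by
    rw [e, cm_smul, cm_skew, KK, cm_smul, cm_sub, cm_smul, ham_eq, mag_eq, (spinAlg n N).M_hg, cm,
      sub_self, smul_zero, sub_self, smul_zero, neg_zero, smul_zero])
  have e2 : KK n N β t + ((β * t : ℝ) : ℂ) • mag n N = KK n N β 0 := by
    rw [KK, KK]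
    push_cast
    module
  rw [e, e2, gs_smul] at h1
  have e3 : ∀ s, pressN n N β s = 1 / (β * (2 * (N : ℝ) + 1) ^ 3) * Real.log (gs (KK n N β s) 1) :=
    fun s => by rw [pressN, gs, mul_one, KK]
  rw [e3, e3, ← mul_sub, magN, one_div, inv_mul_le_iff₀ (mul_pos hβ hV)]
  have e4 : β * (2 * (N : ℝ) + 1) ^ 3 *
      (t * (gs (KK n N β t) (mag n N) / gs (KK n N β t) 1 / (2 * (N : ℝ) + 1) ^ 3)) =
      β * t * gs (KK n N β t) (mag n N) / gs (KK n N β t) 1 := by
    field_simp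
  rw [e4]
  linarith

end Vale.Agent.P361
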